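import Mathlib

set_option linter.all false

/-!
# P022: Poisson summation for a binary theta series with a linear exponential (helper118)

`qf A B C x y = A x² + B x y + C y²`, `D = 4 A C - B²`. For `σ` in the upper half plane and all
complex `s`, `t`

`∑_(x,y) exp (2πi (σ Q(x,y) + x s + y t)) = i / (σ √D) ∑_(m,n) exp (-(2πi/σ) Q*(m+s, n+t))`,

`Q*(x,y) = (C x² - B x y + A y²) / D`.
-/

open Complex Real

namespace Vale.Agent.P022.H118

/-- the binary form -/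
noncomputable def qf (A B C : ℝ) (x y : ℂ) : ℂ := A * x ^ 2 + B * x * y + C * y ^ 2

/-- one variable -/
lemma th1 (z : ℂ) {τ : ℂ} (hτ : 0 < τ.im) :
    ∑' n : ℤ, cexp (2 * π * I * n * z + π * I * n ^ 2 * τ) =
      1 / (-I * τ) ^ (1 / 2 : ℂ) * ∑' n : ℤ, cexp (-(π * I / τ) * (n + z) ^ 2) := by
  have h0 : τ ≠ 0 := by
    rintro rfl
    simp at hτ
  have h := jacobiTheta₂_functional_equation z τ
  unfold jacobiTheta₂ jacobiTheta₂_term at h
  rw [h, mul_assoc, ← tsum_mul_left]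
  congr 1
  rw [← (Equiv.neg ℤ).tsum_eq]
  refine tsum_congr fun n => ?_
  rw [← Complex.exp_add]
  congr 1
  simp only [Equiv.neg_apply, Int.cast_neg]
  field_simp
  ring

/-- the term of one variable is summable -/
lemma su1 (z : ℂ) {τ : ℂ} (hτ : 0 < τ.im) :
    Summable fun n : ℤ => cexp (2 * π * I * n * z + π * I * n ^ 2 * τ) :=
  (summable_jacobiTheta₂_term_iff z τ).2 hτ

lemma norm_t1 (z τ : ℂ) (n : ℤ) : ‖cexp (2 * π * I * n * z + π * I * n ^ 2 * τ)‖ =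
    Real.exp (-π * n ^ 2 * τ.im - 2 * π * n * z.im) := norm_jacobiTheta₂_term n z τ

/-- a positive definite form is bounded below -/
lemma pd {A B C : ℝ} (hA : 0 < A) (hD : 0 < 4 * A * C - B ^ 2) :
    ∃ δ : ℝ, 0 < δ ∧ ∀ x y : ℝ, δ * (x ^ 2 + y ^ 2) ≤ A * x ^ 2 + B * x * y + C * y ^ 2 := by
  have hC : 0 < C := by
    by_contra h
    have : A * C ≤ 0 := mul_nonpos_of_nonneg_of_nonpos hA.le (not_lt.1 h)
    nlinarith [sq_nonneg B]
  refine ⟨(4 * A * C - B ^ 2) / (4 * (A + C)), by positivity, fun x y => ?_⟩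
  obtain ⟨δ, hδ⟩ : ∃ δ, δ = (4 * A * C - B ^ 2) / (4 * (A + C)) := ⟨_, rfl⟩
  rw [← hδ]
  have h1 : δ * (4 * (A + C)) = 4 * A * C - B ^ 2 := by
    rw [hδ]
    field_simp
  have h2 : 0 < A - δ := by
    have h3 : (A - δ) * (4 * (A + C)) = 4 * A ^ 2 + B ^ 2 := by linear_combination -h1
    by_contra h
    have : (A - δ) * (4 * (A + C)) ≤ 0 := mul_nonpos_of_nonpos_of_nonneg (not_lt.1 h) (by positivity)
    nlinarith [sq_nonneg B, pow_pos hA 2]
  have h3 : 4 * (A - δ) * (C - δ) - B ^ 2 = 4 * δ ^ 2 := by linear_combination -h1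
  have h4 : 0 ≤ 4 * (A - δ) * ((A - δ) * x ^ 2 + B * x * y + (C - δ) * y ^ 2) := by
    have : 4 * (A - δ) * ((A - δ) * x ^ 2 + B * x * y + (C - δ) * y ^ 2) =
        (2 * (A - δ) * x + B * y) ^ 2 + 4 * δ ^ 2 * y ^ 2 := by
      linear_combination y ^ 2 * h3
    rw [this]
    positivity
  have h5 : 0 ≤ (A - δ) * x ^ 2 + B * x * y + (C - δ) * y ^ 2 := by
    by_contra h
    have : 4 * (A - δ) * ((A - δ) * x ^ 2 + B * x * y + (C - δ) * y ^ 2) < 0 :=
      mul_neg_of_pos_of_neg (by positivity) (not_le.1 h)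
    linarith
  nlinarith [h5]

/-- the exponential with quadratic and linear part -/
noncomputable def ex2 (A B C : ℝ) (σ s t : ℂ) (w : ℤ × ℤ) : ℂ :=
  cexp (2 * π * I * (σ * qf A B C w.1 w.2 + w.1 * s + w.2 * t))

lemma norm_ex2 (A B C : ℝ) (σ s t : ℂ) (w : ℤ × ℤ) : ‖ex2 A B C σ s t w‖ =
    Real.exp (-(2 * π) * (σ.im * (A * w.1 ^ 2 + B * w.1 * w.2 + C * w.2 ^ 2) + w.1 * s.im +
      w.2 * t.im)) := by
  unfold ex2 qf
  rw [Complex.norm_exp]
  congr 1
  have e : (2 * π * I * (σ * (A * (w.1 : ℂ) ^ 2 + B * w.1 * w.2 + C * w.2 ^ 2) + w.1 * s +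
      w.2 * t) : ℂ) = (2 * π : ℝ) * (I * (σ * ((A * w.1 ^ 2 + B * w.1 * w.2 + C * w.2 ^ 2 : ℝ)) +
      ((w.1 : ℝ) : ℂ) * s + ((w.2 : ℝ) : ℂ) * t)) := by
    push_cast
    ring
  rw [e, Complex.re_ofReal_mul, Complex.I_mul_re]
  simp only [Complex.add_im, Complex.im_ofReal_mul, Complex.mul_im, Complex.ofReal_im,
    Complex.ofReal_re]
  ring

lemma summable_ex2 {A B C : ℝ} (hA : 0 < A) (hD : 0 < 4 * A * C - B ^ 2) {σ : ℂ} (hσ : 0 < σ.im)
    (s t : ℂ) : Summable (ex2 A B C σ s t) := by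
  obtain ⟨δ, hδ, h⟩ := pd hA hD
  have h1 := su1 s (τ := ((2 * δ : ℝ) : ℂ) * σ) (by
    rw [Complex.im_ofReal_mul]; positivity)
  have h2 := su1 t (τ := ((2 * δ : ℝ) : ℂ) * σ) (by
    rw [Complex.im_ofReal_mul]; positivity)
  have h3 := h1.norm.mul_of_nonneg h2.norm (fun _ => norm_nonneg _) (fun _ => norm_nonneg _)
  refine Summable.of_norm_bounded h3 fun w => ?_
  rw [norm_ex2, norm_t1, norm_t1, ← Real.exp_add]
  refine Real.exp_le_exp.2 ?_
  rw [Complex.im_ofReal_mul]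
  have h4 := mul_le_mul_of_nonneg_left (h w.1 w.2) (mul_nonneg (mul_nonneg zero_le_two pi_pos.le)
    hσ.le)
  nlinarith [h4]

/-- the double sum in the middle -/
lemma summable_mid {A B C : ℝ} (hA : 0 < A) (hD : 0 < 4 * A * C - B ^ 2) {σ : ℂ} (hσ : 0 < σ.im)
    (s t : ℂ) : Summable fun w : ℤ × ℤ => cexp (-(π * I / (2 * A * σ)) * (w.2 + (s + σ * B * w.1)) ^ 2 +
      2 * π * I * (σ * C * w.1 ^ 2 + w.1 * t)) := by
  have hσ0 : σ ≠ 0 := by
    rintro rfl
    simp at hσ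
  have hA0 : (A : ℂ) ≠ 0 := by exact_mod_cast hA.ne'
  have i1 : 0 < (-1 / (((2 * A : ℝ) : ℂ) * σ)).im := by
    have e : (-1 / (((2 * A : ℝ) : ℂ) * σ)) = (((2 * A)⁻¹ : ℝ) : ℂ) * (-σ⁻¹) := by
      push_cast
      field_simp
    rw [e, Complex.im_ofReal_mul, Complex.neg_im, Complex.inv_im]
    have : 0 < Complex.normSq σ := Complex.normSq_pos.2 hσ0
    have h2 : -(-σ.im / Complex.normSq σ) = σ.im / Complex.normSq σ := by ring
    rw [h2]
    positivity
  have i2 : 0 < ((((4 * A * C - B ^ 2) / (2 * A) : ℝ) : ℂ) * σ).im := by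
    rw [Complex.im_ofReal_mul]
    positivity
  have h1 := su1 (-s / (((2 * A : ℝ) : ℂ) * σ)) i1
  have h2 := su1 (t - B / (2 * A) * s) i2
  have h3 := (h2.norm.mul_of_nonneg h1.norm (fun _ => norm_nonneg _)
    (fun _ => norm_nonneg _)).mul_left ‖cexp (-(π * I / (2 * A * σ)) * s ^ 2)‖
  refine Summable.of_norm_bounded h3 fun w => ?_
  obtain ⟨y, n⟩ := w
  simp only
  rw [← norm_mul, ← norm_mul, ← Complex.exp_add, ← Complex.exp_add]
  have hn : ‖cexp (((-(π * (B / A) * n * y) : ℝ) : ℂ) * I)‖ = 1 :=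
    Complex.norm_exp_ofReal_mul_I _
  rw [← mul_one ‖cexp (-(π * I / (2 * A * σ)) * s ^ 2 + _)‖, ← hn, ← norm_mul, ← Complex.exp_add]
  refine le_of_eq ?_
  congr 2
  push_cast
  field_simp
  ring

/-- the product of the two square roots -/
lemma cst {a b : ℝ} (ha : 0 < a) (hb : 0 < b) {z : ℂ} (hz : z ≠ 0) :
    ((a : ℂ) * z) ^ (1 / 2 : ℂ) * ((b : ℂ) * z) ^ (1 / 2 : ℂ) = Real.sqrt (a * b) * z := by
  have ha0 : (a : ℂ) ≠ 0 := by exact_mod_cast ha.ne'
  have hb0 : (b : ℂ) ≠ 0 := by exact_mod_cast hb.ne'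
  have hab : 0 < a * b := mul_pos ha hb
  rw [Complex.cpow_def_of_ne_zero (mul_ne_zero ha0 hz),
    Complex.cpow_def_of_ne_zero (mul_ne_zero hb0 hz), ← Complex.exp_add,
    Complex.log_ofReal_mul ha hz, Complex.log_ofReal_mul hb hz]
  have e : ((Real.log a : ℂ) + Complex.log z) * (1 / 2) + ((Real.log b : ℂ) + Complex.log z) * (1 / 2)
      = ((Real.log (a * b) / 2 : ℝ) : ℂ) + Complex.log z := by
    rw [Real.log_mul ha.ne' hb.ne']
    push_cast
    ring
  rw [e, Complex.exp_add, Complex.exp_log hz, ← Complex.ofReal_exp]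
  congr 2
  rw [← Real.log_sqrt hab.le, Real.exp_log (Real.sqrt_pos.2 hab)]

/-- the last double sum -/
lemma summable_last {A B C : ℝ} (hA : 0 < A) (hD : 0 < 4 * A * C - B ^ 2) {σ : ℂ} (hσ : 0 < σ.im)
    (s t : ℂ) : Summable fun w : ℤ × ℤ => cexp (-(2 * π * I / σ) *
        (qf C (-B) A (w.1 + s) (w.2 + t) / ((4 * A * C - B ^ 2 : ℝ) : ℂ))) := by
  have hσ0 : σ ≠ 0 := by
    rintro rfl
    simp at hσ
  have hC : 0 < C := by
    by_contra h
    have : A * C ≤ 0 := mul_nonpos_of_nonneg_of_nonpos hA.le (not_lt.1 h)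
    nlinarith [sq_nonneg B]
  obtain ⟨D, hDe⟩ : ∃ D : ℝ, D = 4 * A * C - B ^ 2 := ⟨_, rfl⟩
  rw [← hDe] at hD ⊢
  have hD0 : (D : ℂ) ≠ 0 := by exact_mod_cast hD.ne'
  have h1 : 0 < (-1 / σ).im := by
    have e : (-1 / σ) = -σ⁻¹ := by
      field_simp
    rw [e, Complex.neg_im, Complex.inv_im]
    have : 0 < Complex.normSq σ := Complex.normSq_pos.2 hσ0
    have h2 : -(-σ.im / Complex.normSq σ) = σ.im / Complex.normSq σ := by ring
    rw [h2]
    positivity
  have h2 : 0 < 4 * (C / D) * (A / D) - (-B / D) ^ 2 := by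
    have : 4 * (C / D) * (A / D) - (-B / D) ^ 2 = (4 * A * C - B ^ 2) / D ^ 2 := by
      ring
    rw [this, ← hDe]
    positivity
  have h3 := (summable_ex2 (div_pos hC hD) h2 h1 (-1 / σ * ((2 * C * s - B * t) / D))
    (-1 / σ * ((2 * A * t - B * s) / D))).mul_left
    (cexp (-(2 * π * I / σ) * (qf C (-B) A s t / (D : ℂ))))
  refine h3.congr fun w => ?_
  unfold ex2 qf
  rw [← Complex.exp_add]
  congr 1
  push_cast
  field_simp
  ring

/-- **Poisson summation for a binary form with a linear exponential.** -/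
theorem po {A B C : ℝ} (hA : 0 < A) (hD : 0 < 4 * A * C - B ^ 2) {σ : ℂ} (hσ : 0 < σ.im)
    (s t : ℂ) :
    ∑' w : ℤ × ℤ, ex2 A B C σ s t w = I / (σ * Real.sqrt (4 * A * C - B ^ 2)) *
      ∑' w : ℤ × ℤ, cexp (-(2 * π * I / σ) *
        (qf C (-B) A (w.1 + s) (w.2 + t) / ((4 * A * C - B ^ 2 : ℝ) : ℂ))) := by
  have hσ0 : σ ≠ 0 := by
    rintro rfl
    simp at hσ
  have hA0 : (A : ℂ) ≠ 0 := by exact_mod_cast hA.ne'
  obtain ⟨D, hDe⟩ : ∃ D : ℝ, D = 4 * A * C - B ^ 2 := ⟨_, rfl⟩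
  have hlast := summable_last hA hD hσ s t
  have hmid := summable_mid hA hD hσ s t
  have hex := summable_ex2 hA hD hσ s t
  rw [← hDe] at hD hlast ⊢
  have hD0 : (D : ℂ) ≠ 0 := by exact_mod_cast hD.ne'
  have i1 : 0 < (((2 * A : ℝ) : ℂ) * σ).im := by
    rw [Complex.im_ofReal_mul]
    positivity
  have i2 : 0 < (((D / (2 * A) : ℝ) : ℂ) * σ).im := by
    rw [Complex.im_ofReal_mul]
    positivity
  have k := cst (a := 2 * A) (b := D / (2 * A)) (by positivity) (by positivity)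
    (z := -I * σ) (mul_ne_zero (neg_ne_zero.2 I_ne_zero) hσ0)
  rw [show 2 * A * (D / (2 * A)) = D by field_simp] at k
  have e1 : ∑' w : ℤ × ℤ, ex2 A B C σ s t w = 1 / (((2 * A : ℝ) : ℂ) * (-I * σ)) ^ (1 / 2 : ℂ) *
      ∑' w : ℤ × ℤ, cexp (-(π * I / (2 * A * σ)) * (w.2 + (s + σ * B * w.1)) ^ 2 +
      2 * π * I * (σ * C * w.1 ^ 2 + w.1 * t)) := by
    rw [hmid.tsum_prod, ← (Equiv.prodComm ℤ ℤ).tsum_eq, Summable.tsum_prod, ← tsum_mul_left]
    · refine tsum_congr fun y => ?_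
      have h := th1 (σ * B * y + s) i1
      have h2 : -I * (((2 * A : ℝ) : ℂ) * σ) = ((2 * A : ℝ) : ℂ) * (-I * σ) := by ring
      rw [h2] at h
      have h3 : ∑' x : ℤ, ex2 A B C σ s t ((Equiv.prodComm ℤ ℤ) (y, x)) =
          cexp (2 * π * I * (σ * C * y ^ 2 + y * t)) * ∑' n : ℤ, cexp (2 * π * I * n *
            (σ * B * y + s) + π * I * n ^ 2 * (((2 * A : ℝ) : ℂ) * σ)) := by
        rw [← tsum_mul_left]
        refine tsum_congr fun x => ?_
        rw [← Complex.exp_add]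
        unfold ex2 qf
        congr 1
        simp only [Equiv.prodComm_apply, Prod.swap_prod_mk]
        push_cast
        ring
      rw [h3, h, ← mul_assoc, mul_comm (cexp _) (1 / _), mul_assoc]
      congr 1
      rw [← tsum_mul_left]
      refine tsum_congr fun n => ?_
      rw [← Complex.exp_add]
      congr 1
      push_cast
      ring
    · exact (Equiv.prodComm ℤ ℤ).summable_iff.2 hex
  have e2 : ∑' w : ℤ × ℤ, cexp (-(π * I / (2 * A * σ)) * (w.2 + (s + σ * B * w.1)) ^ 2 +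
      2 * π * I * (σ * C * w.1 ^ 2 + w.1 * t)) =
      1 / (((D / (2 * A) : ℝ) : ℂ) * (-I * σ)) ^ (1 / 2 : ℂ) * ∑' w : ℤ × ℤ,
      cexp (-(2 * π * I / σ) * (qf C (-B) A (w.1 + s) (w.2 + t) / (D : ℂ))) := by
    rw [hlast.tsum_prod, ← (Equiv.prodComm ℤ ℤ).tsum_eq, Summable.tsum_prod, ← tsum_mul_left]
    · refine tsum_congr fun n => ?_
      have h := th1 (t - B / (2 * A) * (n + s)) i2
      have h2 : -I * (((D / (2 * A) : ℝ) : ℂ) * σ) = ((D / (2 * A) : ℝ) : ℂ) * (-I * σ) := by ring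
      rw [h2] at h
      have h3 : ∑' y : ℤ, cexp (-(π * I / (2 * A * σ)) *
          (((Equiv.prodComm ℤ ℤ) (n, y)).2 + (s + σ * B * ((Equiv.prodComm ℤ ℤ) (n, y)).1)) ^ 2 +
          2 * π * I * (σ * C * ((Equiv.prodComm ℤ ℤ) (n, y)).1 ^ 2 +
          ((Equiv.prodComm ℤ ℤ) (n, y)).1 * t)) =
          cexp (-(π * I / (2 * A * σ)) * (n + s) ^ 2) * ∑' y : ℤ, cexp (2 * π * I * y *
            (t - B / (2 * A) * (n + s)) + π * I * y ^ 2 * (((D / (2 * A) : ℝ) : ℂ) * σ)) := by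
        rw [← tsum_mul_left]
        refine tsum_congr fun y => ?_
        rw [← Complex.exp_add]
        congr 1
        simp only [Equiv.prodComm_apply, Prod.swap_prod_mk]
        rw [hDe]
        push_cast
        field_simp
        ring
      rw [h3, h, ← mul_assoc, mul_comm (cexp _) (1 / _), mul_assoc]
      congr 1
      rw [← tsum_mul_left]
      refine tsum_congr fun m => ?_
      rw [← Complex.exp_add]
      congr 1
      have hc : (D : ℂ) = 4 * A * C - B ^ 2 := by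
        rw [hDe]
        push_cast
        ring
      have key : ((n : ℂ) + s) ^ 2 / (2 * A) + 2 * A / D *
          (m + (t - B / (2 * A) * (n + s))) ^ 2 =
          2 * ((C * (n + s) ^ 2 - B * (n + s) * (m + t) + A * (m + t) ^ 2) / D) := by
        field_simp
        linear_combination ((n : ℂ) + s) ^ 2 * hc
      have l1 : -(π * I / (2 * A * σ)) * (n + s) ^ 2 + -(π * I / (((D / (2 * A) : ℝ) : ℂ) * σ)) *
          (m + (t - B / (2 * A) * (n + s))) ^ 2 = -(π * I / σ) * (((n : ℂ) + s) ^ 2 / (2 * A) +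
          2 * A / D * (m + (t - B / (2 * A) * (n + s))) ^ 2) := by
        push_cast
        field_simp
        ring
      rw [l1, key]
      unfold qf
      push_cast
      ring
    · exact (Equiv.prodComm ℤ ℤ).summable_iff.2 hmid
  rw [e1, e2, ← mul_assoc]
  congr 1
  rw [div_mul_div_comm, one_mul, k]
  have hs : (Real.sqrt D : ℂ) ≠ 0 := by
    exact_mod_cast (Real.sqrt_pos.2 hD).ne'
  field_simp
  simp

end Vale.Agent.P022.H118
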