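import Vale.Agent.P022.H118.Po

set_option linter.all false

/-!
# P022: two variable Poisson summation with complex coefficients (helper118)

`ex3 A B C s t (x, y) = exp (2πi (A x² + B x y + C y² + x s + y t))`, `A B C s t : ℂ`,
`Pd A B C`: the imaginary part of the form is positive definite. `po3`:

`∑ ex3 A B C s t = κ ∑_(m,n) exp (-2πi (C (m+s)² - B (m+s)(n+t) + A (n+t)²) / (4AC - B²))`,
`κ = 1 / ((-2iA)^(1/2) (-i(4AC-B²)/(2A))^(1/2))`, and `κ = 1/√δ` if `4AC - B² = -δ`, `δ > 0`.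
-/

open Complex Real

namespace Vale.Agent.P022.H118

/-- the imaginary part is positive definite -/
def Pd (A B C : ℂ) : Prop := 0 < A.im ∧ B.im ^ 2 < 4 * A.im * C.im

lemma Pd.swap {A B C : ℂ} (h : Pd A B C) : Pd C B A := by
  obtain ⟨h1, h2⟩ := h
  refine ⟨?_, by linarith [h2]⟩
  by_contra h
  have : A.im * C.im ≤ 0 := mul_nonpos_of_nonneg_of_nonpos h1.le (not_lt.1 h)
  nlinarith [sq_nonneg B.im]

lemma Pd.ne {A B C : ℂ} (h : Pd A B C) : A ≠ 0 := by
  rintro rfl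
  exact lt_irrefl _ h.1

/-- inversion in the first variable preserves positivity -/
lemma Pd.inv {A B C : ℂ} (h : Pd A B C) :
    Pd (-1 / (4 * A)) (-B / (2 * A)) (C - B ^ 2 / (4 * A)) := by
  have hA := h.ne
  obtain ⟨h1, h2⟩ := h
  obtain ⟨w, hw⟩ : ∃ w : ℂ, w = B / (2 * A) := ⟨_, rfl⟩
  have hB : B = 2 * A * w := by
    rw [hw]
    field_simp
  have e1 : -B / (2 * A) = -w := by
    rw [hw]
    ring
  have e2 : C - B ^ 2 / (4 * A) = C - A * w ^ 2 := by
    rw [hB]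
    field_simp
    ring
  have hN : 0 < Complex.normSq A := Complex.normSq_pos.2 hA
  have e3 : (-1 / (4 * A)).im = A.im / (4 * Complex.normSq A) := by
    have : (-1 / (4 * A)) = (((4 : ℝ)⁻¹ : ℝ) : ℂ) * (-A⁻¹) := by
      push_cast
      field_simp
    rw [this, Complex.im_ofReal_mul, Complex.neg_im, Complex.inv_im]
    field_simp
  have hB2 : B.im = 2 * (A.im * w.re + A.re * w.im) := by
    rw [hB]
    simp only [Complex.mul_im, Complex.mul_re, Complex.re_ofNat, Complex.im_ofNat]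
    ring
  have hC2 : (C - A * w ^ 2).im = C.im - B.im * w.re + A.im * w.re ^ 2 + A.im * w.im ^ 2 := by
    rw [hB2, pow_two]
    simp only [Complex.sub_im, Complex.mul_im, Complex.mul_re]
    ring
  rw [e1, e2]
  refine ⟨?_, ?_⟩
  · rw [e3]
    positivity
  · rw [e3, hC2, Complex.neg_im]
    have hns : Complex.normSq A = A.re ^ 2 + A.im ^ 2 := by
      rw [Complex.normSq_apply]
      ring
    have h3 : 4 * (A.im / (4 * Complex.normSq A)) *
        (C.im - B.im * w.re + A.im * w.re ^ 2 + A.im * w.im ^ 2) - (-w.im) ^ 2 =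
        (4 * A.im * C.im - B.im ^ 2) / (4 * Complex.normSq A) := by
      have := hN.ne'
      field_simp
      rw [hns, hB2]
      ring
    have h4 : 0 < (4 * A.im * C.im - B.im ^ 2) / (4 * Complex.normSq A) := by
      have : 0 < 4 * A.im * C.im - B.im ^ 2 := by linarith
      positivity
    linarith

/-- the exponential of a complex quadratic polynomial -/
noncomputable def ex3 (A B C s t : ℂ) (w : ℤ × ℤ) : ℂ :=
  cexp (2 * π * I * (A * (w.1 : ℂ) ^ 2 + B * w.1 * w.2 + C * (w.2 : ℂ) ^ 2 + w.1 * s + w.2 * t))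

lemma norm_ex3 (A B C s t : ℂ) (w : ℤ × ℤ) : ‖ex3 A B C s t w‖ =
    Real.exp (-(2 * π) * (A.im * w.1 ^ 2 + B.im * w.1 * w.2 + C.im * w.2 ^ 2 + w.1 * s.im +
      w.2 * t.im)) := by
  unfold ex3
  rw [Complex.norm_exp]
  congr 1
  have e : (2 * π * I * (A * (w.1 : ℂ) ^ 2 + B * w.1 * w.2 + C * (w.2 : ℂ) ^ 2 + w.1 * s +
      w.2 * t) : ℂ) = (2 * π : ℝ) * (I * (((w.1 ^ 2 : ℝ) : ℂ) * A + ((w.1 * w.2 : ℝ) : ℂ) * B +
      ((w.2 ^ 2 : ℝ) : ℂ) * C + ((w.1 : ℝ) : ℂ) * s + ((w.2 : ℝ) : ℂ) * t)) := by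
    push_cast
    ring
  rw [e, Complex.re_ofReal_mul, Complex.I_mul_re]
  simp only [Complex.add_im, Complex.im_ofReal_mul]
  ring

lemma summable_ex3 {A B C : ℂ} (h : Pd A B C) (s t : ℂ) : Summable (ex3 A B C s t) := by
  have hD : 0 < 4 * A.im * C.im - B.im ^ 2 := by linarith [h.2]
  have h1 := summable_ex2 (A := A.im) (B := B.im) (C := C.im) h.1 hD (σ := I) (by simp) s t
  refine Summable.of_norm_bounded h1.norm fun w => ?_
  rw [norm_ex3, norm_ex2]
  refine Real.exp_le_exp.2 (le_of_eq ?_)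
  simp only [Complex.I_im]
  ring

/-- inversion in the first variable -/
lemma half {A B C : ℂ} (h : Pd A B C) (s t : ℂ) :
    ∑' w, ex3 A B C s t w = 1 / (-I * (2 * A)) ^ (1 / 2 : ℂ) * (cexp (-(π * I / (2 * A)) * s ^ 2) *
      ∑' w, ex3 (-1 / (4 * A)) (-B / (2 * A)) (C - B ^ 2 / (4 * A)) (-s / (2 * A))
        (t - B * s / (2 * A)) w) := by
  have hA := h.ne
  have i1 : 0 < (2 * A).im := by
    have : (2 * A) = ((2 : ℝ) : ℂ) * A := by push_cast; ring
    rw [this, Complex.im_ofReal_mul]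
    linarith [h.1]
  have s1 := summable_ex3 h s t
  have s2 := summable_ex3 h.inv (-s / (2 * A)) (t - B * s / (2 * A))
  rw [← (Equiv.prodComm ℤ ℤ).tsum_eq, Summable.tsum_prod, ← (Equiv.prodComm ℤ ℤ).tsum_eq
    (ex3 (-1 / (4 * A)) (-B / (2 * A)) (C - B ^ 2 / (4 * A)) (-s / (2 * A))
        (t - B * s / (2 * A))), Summable.tsum_prod, ← tsum_mul_left, ← tsum_mul_left]
  · refine tsum_congr fun y => ?_
    have k := th1 (B * y + s) i1
    have e1 : ∑' x : ℤ, ex3 A B C s t ((Equiv.prodComm ℤ ℤ) (y, x)) =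
        cexp (2 * π * I * (C * (y : ℂ) ^ 2 + y * t)) * ∑' n : ℤ, cexp (2 * π * I * n *
          (B * y + s) + π * I * n ^ 2 * (2 * A)) := by
      rw [← tsum_mul_left]
      refine tsum_congr fun x => ?_
      rw [← Complex.exp_add]
      unfold ex3
      congr 1
      simp only [Equiv.prodComm_apply, Prod.swap_prod_mk]
      ring
    rw [e1, k, ← mul_assoc, mul_comm (cexp _) (1 / _), mul_assoc]
    congr 1
    rw [← tsum_mul_left, ← tsum_mul_left]
    refine tsum_congr fun n => ?_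
    unfold ex3
    rw [← Complex.exp_add, ← Complex.exp_add]
    congr 1
    simp only [Equiv.prodComm_apply, Prod.swap_prod_mk]
    field_simp
    ring
  · exact (Equiv.prodComm ℤ ℤ).summable_iff.2 s2
  · exact (Equiv.prodComm ℤ ℤ).summable_iff.2 s1

lemma ex3_swap (A B C s t : ℂ) : ∑' w, ex3 A B C s t w = ∑' w, ex3 C B A t s w := by
  rw [← (Equiv.prodComm ℤ ℤ).tsum_eq]
  refine tsum_congr fun w => ?_
  unfold ex3
  congr 1
  simp only [Equiv.prodComm_apply, Prod.fst_swap, Prod.snd_swap]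
  ring

/-- **Poisson summation for a complex quadratic polynomial in two variables.** -/
theorem po3 {A B C : ℂ} (h : Pd A B C) (s t : ℂ) :
    ∑' w, ex3 A B C s t w =
      1 / ((-I * (2 * A)) ^ (1 / 2 : ℂ) * (-I * ((4 * A * C - B ^ 2) / (2 * A))) ^ (1 / 2 : ℂ)) *
      ∑' w : ℤ × ℤ, cexp (-(2 * π * I) * ((C * (w.1 + s) ^ 2 - B * (w.1 + s) * (w.2 + t) +
        A * (w.2 + t) ^ 2) / (4 * A * C - B ^ 2))) := by
  have hA := h.ne
  have h' := h.inv.swap
  have hC' := h'.ne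
  have hd : 4 * A * C - B ^ 2 ≠ 0 := by
    intro h0
    apply hC'
    have : C - B ^ 2 / (4 * A) = (4 * A * C - B ^ 2) / (4 * A) := by
      field_simp
    rw [this, h0, zero_div]
  obtain ⟨E, hE⟩ : ∃ E : ℂ, E = 4 * A * C - B ^ 2 := ⟨_, rfl⟩
  have hCE : C - B ^ 2 / (4 * A) = E / (4 * A) := by
    rw [hE]
    field_simp
  rw [← hE] at hd ⊢
  have k := half h' (t - B * s / (2 * A)) (-s / (2 * A))
  rw [half h s t, ex3_swap, k]
  rw [hCE] at *
  have e1 : -I * (2 * (E / (4 * A))) = -I * (E / (2 * A)) := by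
    field_simp
    ring
  rw [e1]
  have e2 : ∀ x y : ℂ, 1 / (x * y) = 1 / x * (1 / y) := fun x y => by
    rw [one_div_mul_one_div]
  rw [e2, mul_assoc, mul_left_comm (cexp _) (1 / _) _]
  congr 1
  congr 1
  rw [← tsum_mul_left, ← tsum_mul_left, ← (Equiv.prodComm ℤ ℤ).tsum_eq]
  refine tsum_congr fun w => ?_
  unfold ex3
  rw [← Complex.exp_add, ← Complex.exp_add]
  congr 1
  simp only [Equiv.prodComm_apply, Prod.fst_swap, Prod.snd_swap]
  have hB : B ^ 2 = 4 * A * C - E := by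
    rw [hE]
    ring
  field_simp
  linear_combination (-16 * ((w.1 : ℂ) + s) ^ 2) * hB

/-- the constant in the indefinite case -/
lemma cst3 {z w : ℂ} {δ : ℝ} (hz : 0 < z.re) (hδ : 0 < δ) (h : z * w = δ) :
    z ^ (1 / 2 : ℂ) * w ^ (1 / 2 : ℂ) = Real.sqrt δ := by
  have hz0 : z ≠ 0 := by
    rintro rfl
    simp at hz
  have hw : w = (δ : ℂ) * z⁻¹ := by
    rw [← h]
    field_simp
  have hw0 : w ≠ 0 := by
    rintro rfl
    rw [mul_zero] at h
    exact hδ.ne (by exact_mod_cast h)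
  have harg : z.arg ≠ π := by
    intro h1
    rw [Complex.arg_eq_pi_iff] at h1
    linarith [h1.1]
  have hl : Complex.log w = (Real.log δ : ℂ) - Complex.log z := by
    rw [hw, Complex.log_ofReal_mul hδ (inv_ne_zero hz0), Complex.log_inv _ harg]
    ring
  rw [Complex.cpow_def_of_ne_zero hz0, Complex.cpow_def_of_ne_zero hw0, ← Complex.exp_add, hl]
  have e : Complex.log z * (1 / 2) + ((Real.log δ : ℂ) - Complex.log z) * (1 / 2) =
      ((Real.log δ / 2 : ℝ) : ℂ) := by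
    push_cast
    ring
  rw [e, ← Complex.ofReal_exp, ← Real.log_sqrt hδ.le, Real.exp_log (Real.sqrt_pos.2 hδ)]

/-- the same for `4AC - B² = -δ < 0` -/
theorem po3_neg {A B C : ℂ} (h : Pd A B C) {δ : ℝ} (hδ : 0 < δ)
    (hd : 4 * A * C - B ^ 2 = -(δ : ℂ)) (s t : ℂ) :
    ∑' w, ex3 A B C s t w = 1 / (Real.sqrt δ : ℂ) *
      ∑' w : ℤ × ℤ, cexp (2 * π * I * ((C * (w.1 + s) ^ 2 - B * (w.1 + s) * (w.2 + t) +
        A * (w.2 + t) ^ 2) / δ)) := by
  have hA := h.ne
  have hδ0 : (δ : ℂ) ≠ 0 := by exact_mod_cast hδ.ne'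
  rw [po3 h s t, cst3 (δ := δ)]
  · congr 1
    refine tsum_congr fun w => ?_
    congr 1
    rw [hd]
    field_simp
  · have : (-I * (2 * A)).re = 2 * A.im := by
      simp [Complex.mul_re, Complex.mul_im]
    rw [this]
    linarith [h.1]
  · exact hδ
  · rw [hd]
    field_simp
    rw [I_sq]
    ring

end Vale.Agent.P022.H118
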