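import Vale.Agent.P022.H472.Lit
import Vale.Agent.P022.H118.Po

set_option linter.all false

/-!
# P022: the block PO (helper118)

`PO : POStmt`, Poisson summation for the theta series of a binary form with the factor `ev ^ κ`.
-/

open Complex

namespace Vale.Agent.P022.H118

/-! ### moments -/

/-- the class of coefficients for which the exponential series is entire -/
def Rp {ι : Type*} (c l : ι → ℂ) : Prop :=
  ∀ R : ℝ, Summable fun n => ‖c n‖ * Real.exp (R * ‖l n‖)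

lemma rp_mul {ι : Type*} {c l : ι → ℂ} (h : Rp c l) : Rp (fun n => c n * l n) l := by
  intro R
  refine Summable.of_nonneg_of_le (fun n => by positivity) (fun n => ?_) (h (R + 1))
  rw [norm_mul, mul_assoc]
  refine mul_le_mul_of_nonneg_left ?_ (norm_nonneg _)
  have h1 : ‖l n‖ ≤ Real.exp ‖l n‖ := by linarith [Real.add_one_le_exp ‖l n‖]
  have h2 : Real.exp ((R + 1) * ‖l n‖) = Real.exp ‖l n‖ * Real.exp (R * ‖l n‖) := by
    rw [← Real.exp_add]
    ring_nf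
  rw [h2]
  exact mul_le_mul_of_nonneg_right h1 (Real.exp_pos _).le

lemma rp_bound {ι : Type*} (c l : ι → ℂ) (n : ι) {u : ℂ} {R : ℝ} (hu : ‖u‖ ≤ R) :
    ‖c n * cexp (u * l n)‖ ≤ ‖c n‖ * Real.exp (R * ‖l n‖) := by
  rw [norm_mul]
  refine mul_le_mul_of_nonneg_left ?_ (norm_nonneg _)
  refine (Complex.norm_exp_le_exp_norm _).trans (Real.exp_le_exp.2 ?_)
  rw [norm_mul]
  exact mul_le_mul_of_nonneg_right hu (norm_nonneg _)

lemma rp_summable {ι : Type*} {c l : ι → ℂ} (h : Rp c l) (u : ℂ) :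
    Summable fun n => c n * cexp (u * l n) :=
  Summable.of_norm_bounded (h ‖u‖) fun n => rp_bound c l n le_rfl

lemma rp_deriv {ι : Type*} {c l : ι → ℂ} (h : Rp c l) (u : ℂ) :
    HasDerivAt (fun u => ∑' n, c n * cexp (u * l n)) (∑' n, c n * l n * cexp (u * l n)) u := by
  have hs : Summable fun n => ‖c n * l n‖ * Real.exp ((‖u‖ + 1) * ‖l n‖) :=
    rp_mul h (‖u‖ + 1)
  have hu : u ∈ Metric.ball (0 : ℂ) (‖u‖ + 1) := mem_ball_zero_iff.2 (by linarith)
  have h1 : ∀ n (y : ℂ), y ∈ Metric.ball (0 : ℂ) (‖u‖ + 1) →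
      HasDerivAt (fun y => c n * cexp (y * l n)) (c n * l n * cexp (y * l n)) y := by
    intro n y _
    have h1 : HasDerivAt (fun y : ℂ => y * l n) (l n) y := by
      simpa using (hasDerivAt_id y).mul_const (l n)
    have h2 := (h1.cexp).const_mul (c n)
    have e : c n * (cexp (y * l n) * l n) = c n * l n * cexp (y * l n) := by ring
    rw [e] at h2
    exact h2
  have h2 : ∀ n (y : ℂ), y ∈ Metric.ball (0 : ℂ) (‖u‖ + 1) →
      ‖c n * l n * cexp (y * l n)‖ ≤ ‖c n * l n‖ * Real.exp ((‖u‖ + 1) * ‖l n‖) := by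
    intro n y hy
    refine rp_bound (fun n => c n * l n) l n ?_
    have := mem_ball_zero_iff.1 hy
    exact this.le
  exact hasDerivAt_tsum_of_isPreconnected hs Metric.isOpen_ball
    (convex_ball (0 : ℂ) (‖u‖ + 1)).isPreconnected h1 h2 hu (rp_summable h u) hu

/-- **comparison of moments** -/
theorem mom {ι ι' : Type*} (μ : ℂ) (k : ℕ) : ∀ {c l : ι → ℂ} {d m : ι' → ℂ} (K : ℂ)
    (_ : Rp c l) (_ : Rp d m)
    (_ : ∀ u, ∑' n, c n * cexp (u * l n) = K * ∑' n, d n * cexp (μ * u * m n)),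
    ∀ u, ∑' n, c n * l n ^ k * cexp (u * l n) =
      K * μ ^ k * ∑' n, d n * m n ^ k * cexp (μ * u * m n) := by
  induction k with
  | zero =>
    intro c l d m K hc hd h u
    simpa using h u
  | succ k ih =>
    intro c l d m K hc hd h u
    have h1 : ∀ u, ∑' n, c n * l n * cexp (u * l n) =
        K * μ * ∑' n, d n * m n * cexp (μ * u * m n) := by
      intro u
      have a1 := rp_deriv hc u
      have a2 := rp_deriv hd (μ * u)
      have a3 : HasDerivAt (fun u : ℂ => μ * u) μ u := by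
        simpa using (hasDerivAt_id u).const_mul μ
      have a4 := (a2.comp u a3).const_mul K
      have a5 : (fun u => ∑' n, c n * cexp (u * l n)) =
          fun u => K * ((fun v => ∑' n, d n * cexp (v * m n)) ∘ fun u => μ * u) u := by
        funext u
        exact h u
      rw [a5] at a1
      have a6 := a1.unique a4
      rw [a6]
      ring
    have h2 := ih (K * μ) (rp_mul hc) (rp_mul hd) h1 u
    have e1 : ∀ n, c n * l n ^ (k + 1) * cexp (u * l n) =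
        c n * l n * l n ^ k * cexp (u * l n) := fun n => by ring
    have e2 : ∀ n, d n * m n ^ (k + 1) * cexp (μ * u * m n) =
        d n * m n * m n ^ k * cexp (μ * u * m n) := fun n => by ring
    simp only [e1, e2]
    rw [h2, pow_succ]
    ring

/-! ### the algebra -/

lemma key (a b c r w M u h1 h2 v1 v2 : ℂ) (hr : r ^ 2 = 4 * a * c - b ^ 2) (hw : w ≠ 0)
    (hM : M ≠ 0) (hr0 : r ≠ 0) :
    (2 * Real.pi * I * w * (a * h1 ^ 2 + b * h1 * h2 + c * h2 ^ 2) +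
      u * (a * h1 + (b + I * r) / 2 * h2)) + -(2 * Real.pi * I / (w * M ^ 2)) *
      ((c * (v2 + (w * M * (2 * a * h1 + b * h2) + u * M / (2 * Real.pi * I) * a)) ^ 2 + (-b) *
        (v2 + (w * M * (2 * a * h1 + b * h2) + u * M / (2 * Real.pi * I) * a)) *
        (-v1 + (w * M * (b * h1 + 2 * c * h2) + u * M / (2 * Real.pi * I) * ((b + I * r) / 2))) +
        a * (-v1 + (w * M * (b * h1 + 2 * c * h2) + u * M / (2 * Real.pi * I) *
        ((b + I * r) / 2))) ^ 2) / r ^ 2) =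
    2 * Real.pi * I * (a * v1 ^ 2 + b * v1 * v2 + c * v2 ^ 2) * (-1 / (r ^ 2 * M ^ 2 * w)) +
      I / (r * M * w) * u * (a * v1 + (b + I * r) / 2 * v2) +
      2 * Real.pi * I * (v1 * h2 - v2 * h1) / M := by
  have hI : I ^ 2 = -1 := I_sq
  have hpi : (2 * Real.pi * I : ℂ) ≠ 0 := by
    simp [Real.pi_ne_zero, I_ne_zero]
  obtain ⟨p, hp⟩ : ∃ p : ℂ, p = 2 * Real.pi * I := ⟨_, rfl⟩
  obtain ⟨y, hy⟩ : ∃ y : ℂ, y = u * M / (2 * Real.pi * I) := ⟨_, rfl⟩
  have hu : u * M = y * p := by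
    rw [hy, hp]
    field_simp
  rw [← hy, ← hp]
  rw [← hp] at hpi
  have X : c * (v2 + (w * M * (2 * a * h1 + b * h2) + y * a)) ^ 2 + (-b) *
        (v2 + (w * M * (2 * a * h1 + b * h2) + y * a)) *
        (-v1 + (w * M * (b * h1 + 2 * c * h2) + y * ((b + I * r) / 2))) +
        a * (-v1 + (w * M * (b * h1 + 2 * c * h2) + y * ((b + I * r) / 2))) ^ 2 =
      (a * v1 ^ 2 + b * v1 * v2 + c * v2 ^ 2) + w * M * r ^ 2 * (v2 * h1 - v1 * h2) +
      w ^ 2 * M ^ 2 * r ^ 2 * (a * h1 ^ 2 + b * h1 * h2 + c * h2 ^ 2) -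
      I * r * y * (a * v1 + (b + I * r) / 2 * v2) +
      y * w * M * r ^ 2 * (a * h1 + (b + I * r) / 2 * h2) := by
    have h0 : 4 * a * c - b ^ 2 + I ^ 2 * r ^ 2 = 0 := by
      rw [hI, hr]
      ring
    linear_combination (y ^ 2 * a / 4 + y * v2 / 2) * h0 -
      (w * M * (v2 * h1 - v1 * h2) + w ^ 2 * M ^ 2 * (a * h1 ^ 2 + b * h1 * h2 + c * h2 ^ 2) +
      y * w * M * (a * h1 + (b + I * r) / 2 * h2)) * hr
  rw [X]
  have hu' : u = y * p / M := by
    rw [← hu]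
    field_simp
  rw [hu']
  field_simp
  ring

/-! ### the theta class -/

lemma exp_abs_le (r x : ℝ) : Real.exp (r * |x|) ≤ Real.exp (r * x) + Real.exp (-(r * x)) := by
  rcases abs_cases x with ⟨h, _⟩ | ⟨h, _⟩
  · rw [h]
    linarith [Real.exp_pos (-(r * x))]
  · rw [h]
    have : r * -x = -(r * x) := by ring
    rw [this]
    linarith [Real.exp_pos (r * x)]

lemma rp_th {a b c : ℤ} {D : ℕ} (ha : 0 < a) (hD : 0 < D) (hb : b ^ 2 - 4 * a * c = -(D : ℤ))
    {f : ℤ × ℤ → ℂ} {B : ℝ} (hf : ∀ v, ‖f v‖ ≤ B) {w : ℂ} (hw : 0 < w.im) :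
    Rp (fun v => f v * cexp (2 * Real.pi * I * (Qf a b c v : ℂ) * w)) (ev a b D) := by
  intro R
  have hA : (0 : ℝ) < a := by exact_mod_cast ha
  have hD' : (0 : ℝ) < 4 * (a : ℝ) * c - (b : ℝ) ^ 2 := by
    have : (4 * a * c - b ^ 2 : ℤ) = D := by linarith
    have h2 : ((4 * a * c - b ^ 2 : ℤ) : ℝ) = D := by exact_mod_cast this
    push_cast at h2
    rw [h2]
    exact_mod_cast hD
  obtain ⟨L, hL⟩ : ∃ L : ℝ, L = max ‖(a : ℂ)‖ ‖((b + I * (Real.sqrt D : ℂ)) / 2 : ℂ)‖ := ⟨_, rfl⟩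
  obtain ⟨r, hr⟩ : ∃ r : ℝ, r = |R| * L := ⟨_, rfl⟩
  have hB : 0 ≤ B := (norm_nonneg _).trans (hf 0)
  have hev : ∀ v : ℤ × ℤ, ‖ev a b D v‖ ≤ L * |(v.1 : ℝ)| + L * |(v.2 : ℝ)| := by
    intro v
    unfold ev
    refine (norm_add_le _ _).trans (add_le_add ?_ ?_)
    · rw [norm_mul]
      have : ‖(v.1 : ℂ)‖ = |(v.1 : ℝ)| := by
        rw [Complex.norm_intCast]
      rw [this]
      exact mul_le_mul_of_nonneg_right (by rw [hL]; exact le_max_left _ _) (abs_nonneg _)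
    · rw [norm_mul]
      have : ‖(v.2 : ℂ)‖ = |(v.2 : ℝ)| := by
        rw [Complex.norm_intCast]
      rw [this]
      exact mul_le_mul_of_nonneg_right (by rw [hL]; exact le_max_right _ _) (abs_nonneg _)
  have hexp : ∀ v : ℤ × ℤ, Real.exp (R * ‖ev a b D v‖) ≤
      (Real.exp (r * v.1) + Real.exp (-(r * v.1))) * (Real.exp (r * v.2) + Real.exp (-(r * v.2))) := by
    intro v
    have h1 : R * ‖ev a b D v‖ ≤ r * |(v.1 : ℝ)| + r * |(v.2 : ℝ)| := by
      calc R * ‖ev a b D v‖ ≤ |R| * ‖ev a b D v‖ :=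
            mul_le_mul_of_nonneg_right (le_abs_self R) (norm_nonneg _)
        _ ≤ |R| * (L * |(v.1 : ℝ)| + L * |(v.2 : ℝ)|) :=
            mul_le_mul_of_nonneg_left (hev v) (abs_nonneg _)
        _ = r * |(v.1 : ℝ)| + r * |(v.2 : ℝ)| := by rw [hr]; ring
    calc Real.exp (R * ‖ev a b D v‖) ≤ Real.exp (r * |(v.1 : ℝ)| + r * |(v.2 : ℝ)|) :=
          Real.exp_le_exp.2 h1
      _ = Real.exp (r * |(v.1 : ℝ)|) * Real.exp (r * |(v.2 : ℝ)|) := Real.exp_add _ _
      _ ≤ _ := mul_le_mul (exp_abs_le _ _) (exp_abs_le _ _) (Real.exp_pos _).le (by positivity)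
  obtain ⟨p, hp⟩ : ∃ p : ℂ, p = ((r / (2 * Real.pi) : ℝ) : ℂ) * I := ⟨_, rfl⟩
  have hpi : p.im = r / (2 * Real.pi) := by
    rw [hp, Complex.mul_im]
    simp only [Complex.ofReal_re, Complex.ofReal_im, Complex.I_im, Complex.I_re, mul_one, mul_zero,
      add_zero]
  have S := fun s t => (summable_ex2 hA hD' hw s t).norm
  have S4 := ((((S (-p) (-p)).add (S (-p) p)).add (S p (-p))).add (S p p)).mul_left B
  refine Summable.of_nonneg_of_le (fun v => by positivity) (fun v => ?_) S4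
  have hn : ‖cexp (2 * Real.pi * I * (Qf a b c v : ℂ) * w)‖ =
      Real.exp (-(2 * Real.pi) * (w.im * (a * v.1 ^ 2 + b * v.1 * v.2 + c * v.2 ^ 2))) := by
    have := norm_ex2 a b c w 0 0 v
    have e : ex2 a b c w 0 0 v = cexp (2 * Real.pi * I * (Qf a b c v : ℂ) * w) := by
      unfold ex2 qf Qf
      congr 1
      push_cast
      ring
    rw [← e, this]
    congr 1
    simp
  rw [norm_mul, hn]
  simp only [norm_ex2, hpi, Complex.neg_im]
  have e : ∀ x y : ℝ, Real.exp (-(2 * Real.pi) * (w.im * (a * v.1 ^ 2 + b * v.1 * v.2 +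
      c * v.2 ^ 2) + v.1 * x + v.2 * y)) = Real.exp (-(2 * Real.pi) *
      (w.im * (a * v.1 ^ 2 + b * v.1 * v.2 + c * v.2 ^ 2))) *
      (Real.exp (-(2 * Real.pi) * (v.1 * x)) * Real.exp (-(2 * Real.pi) * (v.2 * y))) := by
    intro x y
    rw [← Real.exp_add, ← Real.exp_add]
    congr 1
    ring
  simp only [e]
  have q : ∀ n : ℝ, -(2 * Real.pi) * (n * (r / (2 * Real.pi))) = -(r * n) := by
    intro n
    have := Real.pi_ne_zero
    field_simp
  have q' : ∀ n : ℝ, -(2 * Real.pi) * (n * -(r / (2 * Real.pi))) = r * n := by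
    intro n
    have := Real.pi_ne_zero
    field_simp
  simp only [q, q']
  have hE := hexp v
  obtain ⟨G, hG⟩ : ∃ G, G = Real.exp (-(2 * Real.pi) *
      (w.im * (a * v.1 ^ 2 + b * v.1 * v.2 + c * v.2 ^ 2))) := ⟨_, rfl⟩
  rw [← hG]
  have hG0 : 0 ≤ G := by rw [hG]; exact (Real.exp_pos _).le
  calc ‖f v‖ * G * Real.exp (R * ‖ev a b D v‖) ≤ B * G *
        ((Real.exp (r * v.1) + Real.exp (-(r * v.1))) *
          (Real.exp (r * v.2) + Real.exp (-(r * v.2)))) := by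
        refine mul_le_mul (mul_le_mul_of_nonneg_right (hf v) hG0) hE (Real.exp_pos _).le
          (mul_nonneg hB hG0)
    _ = _ := by ring

/-! ### residues -/

lemma decomp (M : ℕ) [NeZero M] (F : ℤ × ℤ → ℂ) (hF : Summable F) :
    ∑' v, F v = ∑ h : Fin M × Fin M, ∑' x : ℤ × ℤ,
      F (x.1 * M + (h.1.1 : ℤ), x.2 * M + (h.2.1 : ℤ)) := by
  let e : (Fin M × Fin M) × (ℤ × ℤ) ≃ ℤ × ℤ :=
    (Equiv.prodComm (Fin M × Fin M) (ℤ × ℤ)).trans
      ((Equiv.prodProdProdComm ℤ (Fin M) ℤ (Fin M)).symm.trans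
        (Equiv.prodCongr (Int.divModEquiv M).symm (Int.divModEquiv M).symm))
  have he : ∀ h x, e (h, x) = (x.1 * M + (h.1.1 : ℤ), x.2 * M + (h.2.1 : ℤ)) := fun h x => rfl
  rw [← e.tsum_eq F, Summable.tsum_prod, tsum_fintype]
  · simp only [he]
  · exact e.summable_iff.2 hF

lemma per_bdd {M : ℕ} (hM : 0 < M) {f : ℤ × ℤ → ℂ} (hf : Per M f) : ∃ B : ℝ, ∀ v, ‖f v‖ ≤ B := by
  have hn : ∀ v : ℤ × ℤ, ‖f v‖ ≤ ∑ i ∈ Finset.range M, ∑ j ∈ Finset.range M,
      ‖f ((i : ℤ), (j : ℤ))‖ := by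
    intro v
    have h0 : (M : ℤ) ≠ 0 := by exact_mod_cast hM.ne'
    have e1 : f v = f ((((v.1 % M).toNat : ℕ) : ℤ), (((v.2 % M).toNat : ℕ) : ℤ)) := by
      have h := hf ((((v.1 % M).toNat : ℕ) : ℤ), (((v.2 % M).toNat : ℕ) : ℤ)) (v.1 / M, v.2 / M)
      rw [← h]
      congr 1
      refine Prod.ext ?_ ?_
      · simp only [Prod.fst_add, Prod.smul_fst, smul_eq_mul]
        rw [Int.toNat_of_nonneg (Int.emod_nonneg _ h0)]
        exact (Int.emod_add_mul_ediv _ _).symm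
      · simp only [Prod.snd_add, Prod.smul_snd, smul_eq_mul]
        rw [Int.toNat_of_nonneg (Int.emod_nonneg _ h0)]
        exact (Int.emod_add_mul_ediv _ _).symm
    have h1 : (v.1 % M).toNat ∈ Finset.range M := by
      rw [Finset.mem_range]
      have := Int.emod_lt_of_pos v.1 (show (0 : ℤ) < M by exact_mod_cast hM)
      have h2 := Int.emod_nonneg v.1 h0
      omega
    have h2 : (v.2 % M).toNat ∈ Finset.range M := by
      rw [Finset.mem_range]
      have := Int.emod_lt_of_pos v.2 (show (0 : ℤ) < M by exact_mod_cast hM)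
      have h2 := Int.emod_nonneg v.2 h0
      omega
    rw [e1]
    calc ‖f ((((v.1 % M).toNat : ℕ) : ℤ), (((v.2 % M).toNat : ℕ) : ℤ))‖ ≤
          ∑ j ∈ Finset.range M, ‖f ((((v.1 % M).toNat : ℕ) : ℤ), (j : ℤ))‖ :=
        Finset.single_le_sum (f := fun j : ℕ => ‖f ((((v.1 % M).toNat : ℕ) : ℤ), (j : ℤ))‖)
          (fun _ _ => norm_nonneg _) h2
      _ ≤ _ := Finset.single_le_sum (f := fun i : ℕ => ∑ j ∈ Finset.range M,
          ‖f ((i : ℤ), (j : ℤ))‖) (fun _ _ => Finset.sum_nonneg fun _ _ => norm_nonneg _) h1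
  exact ⟨_, hn⟩

lemma hat_bdd (M : ℕ) {f : ℤ × ℤ → ℂ} {B : ℝ} (hB : ∀ v, ‖f v‖ ≤ B) (v : ℤ × ℤ) :
    ‖hatF M f v‖ ≤ M * (M * B) := by
  unfold hatF
  refine (norm_sum_le _ _).trans ?_
  have h1 : ∀ i ∈ (Finset.univ : Finset (Fin M)), ‖∑ j : Fin M, f ((i.1 : ℤ), (j.1 : ℤ)) *
      Complex.exp (2 * Real.pi * Complex.I * ((v.1 * j.1 - v.2 * i.1 : ℤ) : ℂ) / M)‖ ≤ M * B := by
    intro i _
    refine (norm_sum_le _ _).trans ?_
    have h2 : ∀ j ∈ (Finset.univ : Finset (Fin M)), ‖f ((i.1 : ℤ), (j.1 : ℤ)) *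
        Complex.exp (2 * Real.pi * Complex.I * ((v.1 * j.1 - v.2 * i.1 : ℤ) : ℂ) / M)‖ ≤ B := by
      intro j _
      have e : (2 * Real.pi * Complex.I * ((v.1 * j.1 - v.2 * i.1 : ℤ) : ℂ) / M : ℂ) =
          ((2 * Real.pi * (v.1 * j.1 - v.2 * i.1 : ℤ) / M : ℝ) : ℂ) * I := by
        push_cast
        ring
      rw [norm_mul, e, Complex.norm_exp_ofReal_mul_I, mul_one]
      exact hB _
    refine (Finset.sum_le_card_nsmul _ _ _ h2).trans ?_
    simp
  refine (Finset.sum_le_card_nsmul _ _ _ h1).trans ?_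
  simp

lemma rp_pow {ι : Type*} {c l : ι → ℂ} (h : Rp c l) (k : ℕ) : Rp (fun n => c n * l n ^ k) l := by
  induction k with
  | zero => simpa using h
  | succ k ih =>
    have := rp_mul ih
    refine (congrArg (fun c => Rp c l) ?_).mp this
    funext n
    ring

/-! ### one residue class -/

/-- rotation of the index -/
def rot : ℤ × ℤ ≃ ℤ × ℤ where
  toFun v := (v.2, -v.1)
  invFun z := (-z.2, z.1)
  left_inv v := by simp
  right_inv z := by simp

lemma cls {a b c : ℤ} {D : ℕ} (ha : 0 < a) (hD : 0 < D) (hb : b ^ 2 - 4 * a * c = -(D : ℤ))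
    {M : ℕ} (hM : 0 < M) {w : ℂ} (hw : 0 < w.im) (u : ℂ) (h : ℤ × ℤ) :
    ∑' x : ℤ × ℤ, cexp (2 * Real.pi * I * (Qf a b c (x.1 * M + h.1, x.2 * M + h.2) : ℂ) * w +
      u * ev a b D (x.1 * M + h.1, x.2 * M + h.2)) =
    I / ((Real.sqrt D : ℂ) * M ^ 2 * w) * ∑' v : ℤ × ℤ,
      cexp (2 * Real.pi * I * ((v.1 * h.2 - v.2 * h.1 : ℤ) : ℂ) / M) *
      cexp (2 * Real.pi * I * (Qf a b c v : ℂ) * (-1 / (D * M ^ 2 * w))) *
      cexp (I / ((Real.sqrt D : ℂ) * M * w) * u * ev a b D v) := by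
  have hw0 : w ≠ 0 := by
    rintro rfl
    simp at hw
  have hM0 : (M : ℂ) ≠ 0 := by exact_mod_cast hM.ne'
  have hA : (0 : ℝ) < a := by exact_mod_cast ha
  have hDr : 4 * (a : ℝ) * c - (b : ℝ) ^ 2 = D := by
    have : (4 * a * c - b ^ 2 : ℤ) = D := by linarith
    have h2 : ((4 * a * c - b ^ 2 : ℤ) : ℝ) = D := by exact_mod_cast this
    push_cast at h2
    exact h2
  have hD1 : (0 : ℝ) < D := by exact_mod_cast hD
  have hD' : (0 : ℝ) < 4 * (a : ℝ) * c - (b : ℝ) ^ 2 := by rw [hDr]; exact hD1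
  obtain ⟨r, hr⟩ : ∃ r : ℂ, r = (Real.sqrt D : ℂ) := ⟨_, rfl⟩
  have hr2 : r ^ 2 = (D : ℂ) := by
    rw [hr]
    exact_mod_cast Real.sq_sqrt hD1.le
  have hr0 : r ≠ 0 := by
    rintro h0
    rw [h0] at hr2
    have : (D : ℂ) = 0 := by rw [← hr2]; simp
    exact hD.ne' (by exact_mod_cast this)
  have hr3 : r ^ 2 = 4 * (a : ℂ) * c - (b : ℂ) ^ 2 := by
    rw [hr2]
    exact_mod_cast hDr.symm
  have hσ : 0 < (w * (M : ℂ) ^ 2).im := by
    have e : w * (M : ℂ) ^ 2 = ((M ^ 2 : ℝ) : ℂ) * w := by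
      push_cast
      ring
    rw [e, Complex.im_ofReal_mul]
    have : (0 : ℝ) < M := by exact_mod_cast hM
    positivity
  have P := po (A := (a : ℝ)) (B := (b : ℝ)) (C := (c : ℝ)) hA hD' (σ := w * (M : ℂ) ^ 2) hσ
    (w * M * (2 * a * h.1 + b * h.2) + u * M / (2 * Real.pi * I) * a)
    (w * M * (b * h.1 + 2 * c * h.2) + u * M / (2 * Real.pi * I) * ((b + I * r) / 2))
  rw [hDr] at P
  have e1 : ∀ x : ℤ × ℤ, cexp (2 * Real.pi * I *
      (Qf a b c (x.1 * M + h.1, x.2 * M + h.2) : ℂ) * w +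
      u * ev a b D (x.1 * M + h.1, x.2 * M + h.2)) =
      cexp (2 * Real.pi * I * w * (a * (h.1 : ℂ) ^ 2 + b * h.1 * h.2 + c * (h.2 : ℂ) ^ 2) +
      u * (a * h.1 + (b + I * r) / 2 * h.2)) * ex2 a b c (w * (M : ℂ) ^ 2)
      (w * M * (2 * a * h.1 + b * h.2) + u * M / (2 * Real.pi * I) * a)
      (w * M * (b * h.1 + 2 * c * h.2) + u * M / (2 * Real.pi * I) * ((b + I * r) / 2)) x := by
    intro x
    unfold ex2 qf Qf ev
    rw [← Complex.exp_add, ← hr]
    congr 1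
    have := Real.pi_ne_zero
    push_cast
    field_simp
    ring
  simp only [e1]
  rw [tsum_mul_left, P, ← rot.tsum_eq, ← mul_assoc, mul_comm (cexp _) (I / _), mul_assoc,
    ← tsum_mul_left]
  have e2 : I / (w * (M : ℂ) ^ 2 * (Real.sqrt D : ℂ)) = I / ((Real.sqrt D : ℂ) * M ^ 2 * w) := by
    congr 1
    ring
  rw [e2]
  congr 1
  refine tsum_congr fun v => ?_
  rw [← Complex.exp_add, ← Complex.exp_add, ← Complex.exp_add]
  congr 1
  have k := key (a : ℂ) b c r w M u h.1 h.2 v.1 v.2 hr3 hw0 hM0 hr0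
  unfold qf Qf ev
  rw [← hr]
  simp only [rot, Equiv.coe_fn_mk]
  push_cast
  rw [← hr2]
  linear_combination k

/-- **Block PO**: Poisson summation for theta series of binary forms. -/
theorem PO : POStmt := by
  intro a b c D ha hD hb κ M hM f hf w hw
  obtain ⟨B, hB⟩ := per_bdd hM hf
  haveI : NeZero M := ⟨hM.ne'⟩
  have hw0 : w ≠ 0 := by
    rintro rfl
    simp at hw
  have hM0 : (M : ℂ) ≠ 0 := by exact_mod_cast hM.ne'
  have hD0 : (0 : ℝ) < D := by exact_mod_cast hD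
  have hM1 : (0 : ℝ) < M := by exact_mod_cast hM
  have hs0 : (Real.sqrt D : ℂ) ≠ 0 := by
    exact_mod_cast (Real.sqrt_pos.2 hD0).ne'
  have hw' : 0 < (-1 / (D * M ^ 2 * w) : ℂ).im := by
    have e : (-1 / (D * M ^ 2 * w) : ℂ) = (((D * M ^ 2)⁻¹ : ℝ) : ℂ) * (-w⁻¹) := by
      have : (D : ℂ) ≠ 0 := by exact_mod_cast hD.ne'
      push_cast
      field_simp
    rw [e, Complex.im_ofReal_mul, Complex.neg_im, Complex.inv_im]
    have : 0 < Complex.normSq w := Complex.normSq_pos.2 hw0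
    have h2 : -(-w.im / Complex.normSq w) = w.im / Complex.normSq w := by ring
    rw [h2]
    positivity
  have R1 := rp_th ha hD hb hB hw
  have R2 := rp_th ha hD hb (hat_bdd M hB) hw'
  have R3 : ∀ h : ℤ × ℤ, Rp (fun v : ℤ × ℤ =>
      cexp (2 * Real.pi * I * ((v.1 * h.2 - v.2 * h.1 : ℤ) : ℂ) / M) *
      cexp (2 * Real.pi * I * (Qf a b c v : ℂ) * (-1 / (D * M ^ 2 * w)))) (ev a b D) := by
    intro h
    refine rp_th (f := fun v : ℤ × ℤ =>
      cexp (2 * Real.pi * I * ((v.1 * h.2 - v.2 * h.1 : ℤ) : ℂ) / M)) (B := 1) ha hD hb ?_ hw'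
    intro v
    have e : (2 * Real.pi * Complex.I * ((v.1 * h.2 - v.2 * h.1 : ℤ) : ℂ) / M : ℂ) =
        ((2 * Real.pi * (v.1 * h.2 - v.2 * h.1 : ℤ) / M : ℝ) : ℂ) * I := by
      push_cast
      ring
    rw [e, Complex.norm_exp_ofReal_mul_I]
  have main : ∀ u : ℂ, ∑' v, f v * cexp (2 * Real.pi * I * (Qf a b c v : ℂ) * w) *
      cexp (u * ev a b D v) = I / ((Real.sqrt D : ℂ) * M ^ 2 * w) * ∑' v,
      hatF M f v * cexp (2 * Real.pi * I * (Qf a b c v : ℂ) * (-1 / (D * M ^ 2 * w))) *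
      cexp (I / ((Real.sqrt D : ℂ) * M * w) * u * ev a b D v) := by
    intro u
    rw [decomp M _ (rp_summable R1 u)]
    have e1 : ∀ h : Fin M × Fin M, ∑' x : ℤ × ℤ, f (x.1 * M + (h.1.1 : ℤ), x.2 * M + (h.2.1 : ℤ)) *
        cexp (2 * Real.pi * I * (Qf a b c (x.1 * M + (h.1.1 : ℤ), x.2 * M + (h.2.1 : ℤ)) : ℂ) * w) *
        cexp (u * ev a b D (x.1 * M + (h.1.1 : ℤ), x.2 * M + (h.2.1 : ℤ))) =
        I / ((Real.sqrt D : ℂ) * M ^ 2 * w) * ∑' v : ℤ × ℤ, f ((h.1.1 : ℤ), (h.2.1 : ℤ)) *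
          (cexp (2 * Real.pi * I * ((v.1 * (h.2.1 : ℤ) - v.2 * (h.1.1 : ℤ) : ℤ) : ℂ) / M) *
          cexp (2 * Real.pi * I * (Qf a b c v : ℂ) * (-1 / (D * M ^ 2 * w))) *
          cexp (I / ((Real.sqrt D : ℂ) * M * w) * u * ev a b D v)) := by
      intro h
      have p1 : ∀ x : ℤ × ℤ, f (x.1 * M + (h.1.1 : ℤ), x.2 * M + (h.2.1 : ℤ)) =
          f ((h.1.1 : ℤ), (h.2.1 : ℤ)) := by
        intro x
        rw [← hf ((h.1.1 : ℤ), (h.2.1 : ℤ)) x]
        congr 1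
        refine Prod.ext ?_ ?_
        · simp only [Prod.fst_add, Prod.smul_fst, smul_eq_mul]
          ring
        · simp only [Prod.snd_add, Prod.smul_snd, smul_eq_mul]
          ring
      have p2 := cls ha hD hb hM hw u ((h.1.1 : ℤ), (h.2.1 : ℤ))
      simp only [p1, mul_assoc (f _)]
      rw [tsum_mul_left, tsum_mul_left, mul_left_comm]
      congr 1
      rw [← p2]
      refine tsum_congr fun x => ?_
      rw [Complex.exp_add]
    simp only [e1]
    rw [← Finset.mul_sum]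
    congr 1
    rw [← Summable.tsum_finsetSum]
    · refine tsum_congr fun v => ?_
      unfold hatF
      rw [Fintype.sum_prod_type, Finset.sum_mul, Finset.sum_mul]
      refine Finset.sum_congr rfl fun i _ => ?_
      rw [Finset.sum_mul, Finset.sum_mul]
      refine Finset.sum_congr rfl fun j _ => ?_
      push_cast
      ring
    · intro h _
      exact (rp_summable (R3 ((h.1.1 : ℤ), (h.2.1 : ℤ)))
        (I / ((Real.sqrt D : ℂ) * M * w) * u)).mul_left _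
  refine ⟨?_, ?_⟩
  · have := rp_summable (rp_pow R1 κ) 0
    refine this.congr fun v => ?_
    unfold thT
    simp
    ring
  · have := mom (I / ((Real.sqrt D : ℂ) * M * w)) κ (I / ((Real.sqrt D : ℂ) * M ^ 2 * w)) R1 R2
      main 0
    unfold th
    have c1 : ∀ v, thT a b c D κ f w v = f v * cexp (2 * Real.pi * I * (Qf a b c v : ℂ) * w) *
        ev a b D v ^ κ * cexp (0 * ev a b D v) := by
      intro v
      unfold thT
      simp
      ring
    have c2 : ∀ v, thT a b c D κ (hatF M f) (-1 / (D * M ^ 2 * w)) v = hatF M f v *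
        cexp (2 * Real.pi * I * (Qf a b c v : ℂ) * (-1 / (D * M ^ 2 * w))) *
        ev a b D v ^ κ * cexp (I / ((Real.sqrt D : ℂ) * M * w) * 0 * ev a b D v) := by
      intro v
      unfold thT
      simp
      ring
    simp only [c1, c2]
    rw [this]
    congr 1
    have e : I / ((Real.sqrt D : ℂ) * M * w) = M * (I / ((Real.sqrt D : ℂ) * M ^ 2 * w)) := by
      field_simp
    rw [e, mul_pow, pow_succ]
    ring

end Vale.Agent.P022.H118
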