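import Vale.Agent.P022.H118.PoS
import Vale.Agent.P022.H118.Po3
import Vale.Agent.P022.H352.Ker

set_option linter.all false

/-!
# P022, stage 3: Poisson summation for the kernel of signature (1, 1) (helper118)

For real linear forms `p`, `q` on `ℤ²` with `d = p1 q2 - p2 q1 ≠ 0`, `f` periodic mod `M`,
`0 < im τ`, `τ' = -1 / (4 d² M² τ)`:

`∑ f(v) p(v) e(τ p(v)² - conj τ q(v)²) =
  -(1 / (4 M³ d |d| τ |τ|)) ∑ hatF M f (v) q(v) e(τ' q(v)² - conj τ' p(v)²)`.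
-/

open Complex

namespace Vale.Agent.P022.H118

lemma rp_ex3 {A B C : ℂ} (h : Pd A B C) {f : ℤ × ℤ → ℂ} {K : ℝ} (hf : ∀ v, ‖f v‖ ≤ K)
    {l : ℤ × ℤ → ℂ} {L : ℝ} (hl : ∀ v, ‖l v‖ ≤ L * |(v.1 : ℝ)| + L * |(v.2 : ℝ)|) :
    Rp (fun v => f v * ex3 A B C 0 0 v) l := by
  intro R
  obtain ⟨r, hr⟩ : ∃ r : ℝ, r = |R| * L := ⟨_, rfl⟩
  have hB : 0 ≤ K := (norm_nonneg _).trans (hf 0)
  have hexp : ∀ v : ℤ × ℤ, Real.exp (R * ‖l v‖) ≤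
      (Real.exp (r * v.1) + Real.exp (-(r * v.1))) * (Real.exp (r * v.2) + Real.exp (-(r * v.2))) := by
    intro v
    have h1 : R * ‖l v‖ ≤ r * |(v.1 : ℝ)| + r * |(v.2 : ℝ)| := by
      calc R * ‖l v‖ ≤ |R| * ‖l v‖ :=
            mul_le_mul_of_nonneg_right (le_abs_self R) (norm_nonneg _)
        _ ≤ |R| * (L * |(v.1 : ℝ)| + L * |(v.2 : ℝ)|) :=
            mul_le_mul_of_nonneg_left (hl v) (abs_nonneg _)
        _ = r * |(v.1 : ℝ)| + r * |(v.2 : ℝ)| := by rw [hr]; ring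
    calc Real.exp (R * ‖l v‖) ≤ Real.exp (r * |(v.1 : ℝ)| + r * |(v.2 : ℝ)|) :=
          Real.exp_le_exp.2 h1
      _ = Real.exp (r * |(v.1 : ℝ)|) * Real.exp (r * |(v.2 : ℝ)|) := Real.exp_add _ _
      _ ≤ _ := mul_le_mul (exp_abs_le _ _) (exp_abs_le _ _) (Real.exp_pos _).le (by positivity)
  obtain ⟨p, hp⟩ : ∃ p : ℂ, p = ((r / (2 * Real.pi) : ℝ) : ℂ) * I := ⟨_, rfl⟩
  have hpi : p.im = r / (2 * Real.pi) := by
    rw [hp, Complex.mul_im]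
    simp only [Complex.ofReal_re, Complex.ofReal_im, Complex.I_im, Complex.I_re, mul_one, mul_zero,
      add_zero]
  have S := fun s t => (summable_ex3 h s t).norm
  have S4 := ((((S (-p) (-p)).add (S (-p) p)).add (S p (-p))).add (S p p)).mul_left K
  refine Summable.of_nonneg_of_le (fun v => by positivity) (fun v => ?_) S4
  rw [norm_mul]
  simp only [norm_ex3, hpi, Complex.neg_im, Complex.zero_im]
  have e : ∀ x y : ℝ, Real.exp (-(2 * Real.pi) * (A.im * v.1 ^ 2 + B.im * v.1 * v.2 +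
      C.im * v.2 ^ 2 + v.1 * x + v.2 * y)) = Real.exp (-(2 * Real.pi) *
      (A.im * v.1 ^ 2 + B.im * v.1 * v.2 + C.im * v.2 ^ 2)) *
      (Real.exp (-(2 * Real.pi) * (v.1 * x)) * Real.exp (-(2 * Real.pi) * (v.2 * y))) := by
    intro x y
    rw [← Real.exp_add, ← Real.exp_add]
    congr 1
    ring
  simp only [e]
  have q : ∀ n : ℝ, -(2 * Real.pi) * (n * (r / (2 * Real.pi))) = -(r * n) := by
    intro n
    have := Real.pi_ne_zero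
    field_simp
  have q' : ∀ n : ℝ, -(2 * Real.pi) * (n * -(r / (2 * Real.pi))) = r * n := by
    intro n
    have := Real.pi_ne_zero
    field_simp
  have q0 : ∀ n : ℝ, -(2 * Real.pi) * (n * (0 : ℝ)) = 0 := by
    intro n
    ring
  simp only [q, q', q0, Real.exp_zero, mul_one]
  have hE := hexp v
  obtain ⟨G, hG⟩ : ∃ G, G = Real.exp (-(2 * Real.pi) *
      (A.im * v.1 ^ 2 + B.im * v.1 * v.2 + C.im * v.2 ^ 2)) := ⟨_, rfl⟩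
  rw [← hG]
  have hG0 : 0 ≤ G := by rw [hG]; exact (Real.exp_pos _).le
  calc ‖f v‖ * G * Real.exp (R * ‖l v‖) ≤ K * G *
        ((Real.exp (r * v.1) + Real.exp (-(r * v.1))) *
          (Real.exp (r * v.2) + Real.exp (-(r * v.2)))) := by
        refine mul_le_mul (mul_le_mul_of_nonneg_right (hf v) hG0) hE (Real.exp_pos _).le
          (mul_nonneg hB hG0)
    _ = _ := by ring

/-! ### the algebra -/

lemma key3 (T T' p1 p2 q1 q2 u M h1 h2 v1 v2 : ℂ) (hT : T ≠ 0) (hT' : T' ≠ 0) (hM : M ≠ 0)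
    (hd : p1 * q2 - p2 * q1 ≠ 0) :
    (2 * Real.pi * I * ((T * p1 ^ 2 - T' * q1 ^ 2) * h1 ^ 2 +
        (2 * (T * p1 * p2 - T' * q1 * q2)) * h1 * h2 + (T * p2 ^ 2 - T' * q2 ^ 2) * h2 ^ 2) +
      u * (p1 * h1 + p2 * h2)) + 2 * Real.pi * I *
      ((M ^ 2 * (T * p2 ^ 2 - T' * q2 ^ 2)) * (v2 + (M * (2 * (T * p1 ^ 2 - T' * q1 ^ 2) * h1 +
          (2 * (T * p1 * p2 - T' * q1 * q2)) * h2) + u * M / (2 * Real.pi * I) * p1)) ^ 2 -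
        (M ^ 2 * (2 * (T * p1 * p2 - T' * q1 * q2))) * (v2 + (M * (2 * (T * p1 ^ 2 - T' * q1 ^ 2) *
          h1 + (2 * (T * p1 * p2 - T' * q1 * q2)) * h2) + u * M / (2 * Real.pi * I) * p1)) *
          (-v1 + (M * ((2 * (T * p1 * p2 - T' * q1 * q2)) * h1 +
          2 * (T * p2 ^ 2 - T' * q2 ^ 2) * h2) + u * M / (2 * Real.pi * I) * p2)) +
        (M ^ 2 * (T * p1 ^ 2 - T' * q1 ^ 2)) * (-v1 + (M * ((2 * (T * p1 * p2 - T' * q1 * q2)) *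
          h1 + 2 * (T * p2 ^ 2 - T' * q2 ^ 2) * h2) + u * M / (2 * Real.pi * I) * p2)) ^ 2) /
      (4 * M ^ 4 * (T * T') * (p1 * q2 - p2 * q1) ^ 2) =
    2 * Real.pi * I * (v1 * h2 - v2 * h1) / M +
      2 * Real.pi * I * (-1 / (4 * (p1 * q2 - p2 * q1) ^ 2 * M ^ 2 * T) * (q1 * v1 + q2 * v2) ^ 2 -
        -1 / (4 * (p1 * q2 - p2 * q1) ^ 2 * M ^ 2 * T') * (p1 * v1 + p2 * v2) ^ 2) +
      -1 / (2 * M * T * (p1 * q2 - p2 * q1)) * u * (q1 * v1 + q2 * v2) +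
      I / (8 * Real.pi * T) * u ^ 2 := by
  have hI : I ^ 2 = -1 := I_sq
  have hp0 : (Real.pi : ℂ) ≠ 0 := by exact_mod_cast Real.pi_ne_zero
  have hpi : (2 * Real.pi * I : ℂ) ≠ 0 := by
    simp [Real.pi_ne_zero, I_ne_zero]
  obtain ⟨y, hy⟩ : ∃ y : ℂ, y = u * M / (2 * Real.pi * I) := ⟨_, rfl⟩
  have hu : u = y * (2 * Real.pi * I) / M := by
    rw [hy]
    field_simp
  rw [← hy]
  obtain ⟨d, hd1⟩ : ∃ d : ℂ, d = p1 * q2 - p2 * q1 := ⟨_, rfl⟩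
  have X : (M ^ 2 * (T * p2 ^ 2 - T' * q2 ^ 2)) * (v2 + (M * (2 * (T * p1 ^ 2 - T' * q1 ^ 2) * h1 +
          (2 * (T * p1 * p2 - T' * q1 * q2)) * h2) + y * p1)) ^ 2 -
        (M ^ 2 * (2 * (T * p1 * p2 - T' * q1 * q2))) * (v2 + (M * (2 * (T * p1 ^ 2 - T' * q1 ^ 2) *
          h1 + (2 * (T * p1 * p2 - T' * q1 * q2)) * h2) + y * p1)) *
          (-v1 + (M * ((2 * (T * p1 * p2 - T' * q1 * q2)) * h1 +
          2 * (T * p2 ^ 2 - T' * q2 ^ 2) * h2) + y * p2)) +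
        (M ^ 2 * (T * p1 ^ 2 - T' * q1 ^ 2)) * (-v1 + (M * ((2 * (T * p1 * p2 - T' * q1 * q2)) *
          h1 + 2 * (T * p2 ^ 2 - T' * q2 ^ 2) * h2) + y * p2)) ^ 2 =
      M ^ 2 * ((T * (p1 * v1 + p2 * v2) ^ 2 - T' * (q1 * v1 + q2 * v2) ^ 2) -
        M * (4 * (T * T') * d ^ 2) * (v2 * h1 - v1 * h2) -
        2 * T' * d * y * (q1 * v1 + q2 * v2) -
        M ^ 2 * (4 * (T * T') * d ^ 2) * ((T * p1 ^ 2 - T' * q1 ^ 2) * h1 ^ 2 +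
        (2 * (T * p1 * p2 - T' * q1 * q2)) * h1 * h2 + (T * p2 ^ 2 - T' * q2 ^ 2) * h2 ^ 2) -
        M * y * (4 * (T * T') * d ^ 2) * (p1 * h1 + p2 * h2) - T' * d ^ 2 * y ^ 2) := by
    rw [hd1]
    ring
  rw [X, hu]
  rw [← hd1] at hd ⊢
  field_simp
  ring_nf
  simp only [hI]
  ring

/-! ### the kernel -/

section kern

variable (p1 p2 q1 q2 : ℝ)

/-- the linear form -/
def lf (p1 p2 : ℝ) (v : ℤ × ℤ) : ℝ := p1 * v.1 + p2 * v.2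

lemma lf_bdd (p1 p2 : ℝ) (v : ℤ × ℤ) : ‖((lf p1 p2 v : ℝ) : ℂ)‖ ≤
    max |p1| |p2| * |(v.1 : ℝ)| + max |p1| |p2| * |(v.2 : ℝ)| := by
  rw [Complex.norm_real, Real.norm_eq_abs]
  unfold lf
  refine (abs_add_le _ _).trans (add_le_add ?_ ?_)
  · rw [abs_mul]
    exact mul_le_mul_of_nonneg_right (le_max_left _ _) (abs_nonneg _)
  · rw [abs_mul]
    exact mul_le_mul_of_nonneg_right (le_max_right _ _) (abs_nonneg _)

/-- the coefficients of the kernel -/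
noncomputable def kA (τ : ℂ) : ℂ := τ * (p1 : ℂ) ^ 2 - (starRingEnd ℂ) τ * (q1 : ℂ) ^ 2

/-- the coefficients of the kernel -/
noncomputable def kB (τ : ℂ) : ℂ := 2 * (τ * p1 * p2 - (starRingEnd ℂ) τ * q1 * q2)

lemma kA_im (τ : ℂ) : (kA p1 q1 τ).im = τ.im * (p1 ^ 2 + q1 ^ 2) := by
  unfold kA
  rw [← Complex.ofReal_pow, ← Complex.ofReal_pow, Complex.sub_im, mul_comm τ,
    mul_comm ((starRingEnd ℂ) τ), Complex.im_ofReal_mul, Complex.im_ofReal_mul, Complex.conj_im]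
  ring

lemma kB_im (τ : ℂ) : (kB p1 p2 q1 q2 τ).im = 2 * τ.im * (p1 * p2 + q1 * q2) := by
  unfold kB
  have e : (2 * (τ * p1 * p2 - (starRingEnd ℂ) τ * q1 * q2) : ℂ) =
      ((2 * (p1 * p2) : ℝ) : ℂ) * τ - ((2 * (q1 * q2) : ℝ) : ℂ) * (starRingEnd ℂ) τ := by
    push_cast
    ring
  rw [e, Complex.sub_im, Complex.im_ofReal_mul, Complex.im_ofReal_mul, Complex.conj_im]
  ring

lemma kPd {p1 p2 q1 q2 : ℝ} (hd : p1 * q2 - p2 * q1 ≠ 0) {τ : ℂ} (hτ : 0 < τ.im) :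
    Pd (kA p1 q1 τ) (kB p1 p2 q1 q2 τ) (kA p2 q2 τ) := by
  refine ⟨?_, ?_⟩
  · rw [kA_im]
    have : 0 < p1 ^ 2 + q1 ^ 2 := by
      by_contra h
      have h1 : p1 = 0 := by nlinarith [sq_nonneg p1, sq_nonneg q1]
      have h2 : q1 = 0 := by nlinarith [sq_nonneg p1, sq_nonneg q1]
      apply hd
      rw [h1, h2]
      ring
    positivity
  · rw [kA_im, kA_im, kB_im]
    have h1 : 0 < (p1 * q2 - p2 * q1) ^ 2 := by positivity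
    have h2 : 4 * (τ.im * (p1 ^ 2 + q1 ^ 2)) * (τ.im * (p2 ^ 2 + q2 ^ 2)) -
        (2 * τ.im * (p1 * p2 + q1 * q2)) ^ 2 = 4 * τ.im ^ 2 * (p1 * q2 - p2 * q1) ^ 2 := by
      ring
    have h3 : 0 < 4 * τ.im ^ 2 * (p1 * q2 - p2 * q1) ^ 2 := by positivity
    linarith

lemma Pd.smul {A B C : ℂ} (h : Pd A B C) {r : ℝ} (hr : 0 < r) :
    Pd ((r : ℂ) * A) ((r : ℂ) * B) ((r : ℂ) * C) := by
  obtain ⟨h1, h2⟩ := h
  refine ⟨?_, ?_⟩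
  · rw [Complex.im_ofReal_mul]
    positivity
  · simp only [Complex.im_ofReal_mul]
    have : 0 < r ^ 2 * (4 * A.im * C.im - B.im ^ 2) := by
      have : 0 < 4 * A.im * C.im - B.im ^ 2 := by linarith
      positivity
    nlinarith [this]

/-- the exponential of the kernel -/
noncomputable def ke (τ : ℂ) (v : ℤ × ℤ) : ℂ := cexp (2 * Real.pi * I *
  (τ * ((lf p1 p2 v : ℝ) : ℂ) ^ 2 - (starRingEnd ℂ) τ * ((lf q1 q2 v : ℝ) : ℂ) ^ 2))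

lemma ke_eq (τ : ℂ) (v : ℤ × ℤ) : ke p1 p2 q1 q2 τ v =
    ex3 (kA p1 q1 τ) (kB p1 p2 q1 q2 τ) (kA p2 q2 τ) 0 0 v := by
  unfold ke ex3 kA kB lf
  congr 1
  push_cast
  ring

variable {p1 p2 q1 q2}

lemma cls3 (hd : p1 * q2 - p2 * q1 ≠ 0) {M : ℕ} (hM : 0 < M) {τ : ℂ} (hτ : 0 < τ.im) (u : ℂ)
    (h : ℤ × ℤ) :
    ∑' x : ℤ × ℤ, ke p1 p2 q1 q2 τ (x.1 * M + h.1, x.2 * M + h.2) *
      cexp (u * ((lf p1 p2 (x.1 * M + h.1, x.2 * M + h.2) : ℝ) : ℂ)) =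
    1 / (2 * (M : ℂ) ^ 2 * ‖τ‖ * |p1 * q2 - p2 * q1|) * cexp (I / (8 * Real.pi * τ) * u ^ 2) *
      ∑' v : ℤ × ℤ, cexp (2 * Real.pi * I * ((v.1 * h.2 - v.2 * h.1 : ℤ) : ℂ) / M) *
        ke q1 q2 p1 p2 (-1 / (4 * (p1 * q2 - p2 * q1) ^ 2 * M ^ 2 * τ)) v *
        cexp (-1 / (2 * M * τ * (p1 * q2 - p2 * q1)) * u * ((lf q1 q2 v : ℝ) : ℂ)) := by
  have hτ0 : τ ≠ 0 := by
    rintro rfl
    simp at hτ
  have hτ1 : (starRingEnd ℂ) τ ≠ 0 := (map_ne_zero _).2 hτ0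
  have hM0 : (M : ℂ) ≠ 0 := by exact_mod_cast hM.ne'
  have hM1 : (0 : ℝ) < M := by exact_mod_cast hM
  have hd0 : (p1 : ℂ) * q2 - p2 * q1 ≠ 0 := by exact_mod_cast hd
  have P := (kPd hd hτ).smul (r := (M : ℝ) ^ 2) (by positivity)
  have hn : 0 < ‖τ‖ := norm_pos_iff.2 hτ0
  have hTT : τ * (starRingEnd ℂ) τ = ((‖τ‖ ^ 2 : ℝ) : ℂ) := by
    rw [Complex.mul_conj, Complex.normSq_eq_norm_sq]
  have hδ : 0 < 4 * (M : ℝ) ^ 4 * ‖τ‖ ^ 2 * (p1 * q2 - p2 * q1) ^ 2 := by positivity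
  have hE : 4 * ((((M : ℝ) ^ 2 : ℝ) : ℂ) * kA p1 q1 τ) * ((((M : ℝ) ^ 2 : ℝ) : ℂ) * kA p2 q2 τ) -
      ((((M : ℝ) ^ 2 : ℝ) : ℂ) * kB p1 p2 q1 q2 τ) ^ 2 =
      -((4 * (M : ℝ) ^ 4 * ‖τ‖ ^ 2 * (p1 * q2 - p2 * q1) ^ 2 : ℝ) : ℂ) := by
    have e : ((4 * (M : ℝ) ^ 4 * ‖τ‖ ^ 2 * (p1 * q2 - p2 * q1) ^ 2 : ℝ) : ℂ) =
        4 * (M : ℂ) ^ 4 * ((‖τ‖ ^ 2 : ℝ) : ℂ) * ((p1 : ℂ) * q2 - p2 * q1) ^ 2 := by
      push_cast
      ring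
    rw [e, ← hTT]
    unfold kA kB
    push_cast
    ring
  have K := po3_neg P hδ hE
    (M * (2 * kA p1 q1 τ * h.1 + kB p1 p2 q1 q2 τ * h.2) + u * M / (2 * Real.pi * I) * p1)
    (M * (kB p1 p2 q1 q2 τ * h.1 + 2 * kA p2 q2 τ * h.2) + u * M / (2 * Real.pi * I) * p2)
  have e1 : ∀ x : ℤ × ℤ, ke p1 p2 q1 q2 τ (x.1 * M + h.1, x.2 * M + h.2) *
      cexp (u * ((lf p1 p2 (x.1 * M + h.1, x.2 * M + h.2) : ℝ) : ℂ)) =
      cexp (2 * Real.pi * I * (kA p1 q1 τ * (h.1 : ℂ) ^ 2 + kB p1 p2 q1 q2 τ * h.1 * h.2 +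
        kA p2 q2 τ * (h.2 : ℂ) ^ 2) + u * (p1 * h.1 + p2 * h.2)) *
      ex3 ((((M : ℝ) ^ 2 : ℝ) : ℂ) * kA p1 q1 τ) ((((M : ℝ) ^ 2 : ℝ) : ℂ) * kB p1 p2 q1 q2 τ)
        ((((M : ℝ) ^ 2 : ℝ) : ℂ) * kA p2 q2 τ)
      (M * (2 * kA p1 q1 τ * h.1 + kB p1 p2 q1 q2 τ * h.2) + u * M / (2 * Real.pi * I) * p1)
      (M * (kB p1 p2 q1 q2 τ * h.1 + 2 * kA p2 q2 τ * h.2) + u * M / (2 * Real.pi * I) * p2) x := by
    intro x
    rw [ke_eq]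
    unfold ex3 lf
    rw [← Complex.exp_add, ← Complex.exp_add]
    congr 1
    have := Real.pi_ne_zero
    push_cast
    field_simp
    ring
  simp only [e1]
  have e2 : Real.sqrt (4 * (M : ℝ) ^ 4 * ‖τ‖ ^ 2 * (p1 * q2 - p2 * q1) ^ 2) =
      2 * (M : ℝ) ^ 2 * ‖τ‖ * |p1 * q2 - p2 * q1| := by
    rw [show 4 * (M : ℝ) ^ 4 * ‖τ‖ ^ 2 * (p1 * q2 - p2 * q1) ^ 2 =
      (2 * (M : ℝ) ^ 2 * ‖τ‖ * |p1 * q2 - p2 * q1|) ^ 2 by rw [mul_pow, mul_pow, mul_pow, sq_abs]; ring]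
    exact Real.sqrt_sq (by positivity)
  rw [e2] at K
  rw [tsum_mul_left, K, ← rot.tsum_eq, mul_left_comm,
    mul_assoc (1 / (2 * (M : ℂ) ^ 2 * ‖τ‖ * |p1 * q2 - p2 * q1|))]
  congr 1
  · push_cast
    ring
  rw [← tsum_mul_left, ← tsum_mul_left]
  refine tsum_congr fun v => ?_
  unfold ke
  rw [← Complex.exp_add, ← Complex.exp_add, ← Complex.exp_add, ← Complex.exp_add]
  congr 1
  have k := key3 τ ((starRingEnd ℂ) τ) p1 p2 q1 q2 u M h.1 h.2 v.1 v.2 hτ0 hτ1 hM0 hd0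
  rw [hTT] at k
  have hc : (starRingEnd ℂ) (-1 / (4 * (p1 * q2 - p2 * q1) ^ 2 * M ^ 2 * τ) : ℂ) =
      -1 / (4 * (p1 * q2 - p2 * q1) ^ 2 * M ^ 2 * (starRingEnd ℂ) τ) := by
    simp only [map_div₀, map_neg, map_one, map_mul, map_pow, map_sub, Complex.conj_ofReal,
      map_natCast, map_ofNat]
  rw [hc]
  unfold lf kA kB
  simp only [rot, Equiv.coe_fn_mk]
  push_cast at k ⊢
  linear_combination k

/-- **Poisson summation for the kernel of signature (1, 1).** -/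
theorem kern (hd : p1 * q2 - p2 * q1 ≠ 0) {M : ℕ} (hM : 0 < M) {f : ℤ × ℤ → ℂ} (hf : Per M f)
    {τ : ℂ} (hτ : 0 < τ.im) :
    ∑' v, f v * (((lf p1 p2 v : ℝ) : ℂ) * ke p1 p2 q1 q2 τ v) =
      -(1 / (4 * (M : ℂ) ^ 3 * (p1 * q2 - p2 * q1) * |p1 * q2 - p2 * q1| * τ * ‖τ‖)) *
      ∑' v, hatF M f v * (((lf q1 q2 v : ℝ) : ℂ) *
        ke q1 q2 p1 p2 (-1 / (4 * (p1 * q2 - p2 * q1) ^ 2 * M ^ 2 * τ)) v) := by
  obtain ⟨B, hB⟩ := per_bdd hM hf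
  haveI : NeZero M := ⟨hM.ne'⟩
  have hτ0 : τ ≠ 0 := by
    rintro rfl
    simp at hτ
  have hM0 : (M : ℂ) ≠ 0 := by exact_mod_cast hM.ne'
  have hM1 : (0 : ℝ) < M := by exact_mod_cast hM
  have hd0 : (p1 : ℂ) * q2 - p2 * q1 ≠ 0 := by exact_mod_cast hd
  have hd' : q1 * p2 - q2 * p1 ≠ 0 := by
    intro h0
    apply hd
    linarith
  obtain ⟨τ', hτ'⟩ : ∃ τ' : ℂ, τ' = -1 / (4 * (p1 * q2 - p2 * q1) ^ 2 * M ^ 2 * τ) := ⟨_, rfl⟩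
  have hi : 0 < τ'.im := by
    have e : τ' = (((4 * (p1 * q2 - p2 * q1) ^ 2 * M ^ 2)⁻¹ : ℝ) : ℂ) * (-τ⁻¹) := by
      rw [hτ']
      push_cast
      field_simp
    rw [e, Complex.im_ofReal_mul, Complex.neg_im, Complex.inv_im]
    have : 0 < Complex.normSq τ := Complex.normSq_pos.2 hτ0
    have h2 : -(-τ.im / Complex.normSq τ) = τ.im / Complex.normSq τ := by ring
    rw [h2]
    positivity
  have Q1 := kPd hd hτ
  have Q2 := kPd hd' hi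
  have R1 := rp_ex3 Q1 hB (l := fun v => ((lf p1 p2 v : ℝ) : ℂ)) (lf_bdd p1 p2)
  have R2 := rp_ex3 Q2 (hat_bdd M hB) (l := fun v => ((lf q1 q2 v : ℝ) : ℂ)) (lf_bdd q1 q2)
  have R3 : ∀ h : ℤ × ℤ, Rp (fun v : ℤ × ℤ =>
      cexp (2 * Real.pi * I * ((v.1 * h.2 - v.2 * h.1 : ℤ) : ℂ) / M) *
      ex3 (kA q1 p1 τ') (kB q1 q2 p1 p2 τ') (kA q2 p2 τ') 0 0 v)
      (fun v => ((lf q1 q2 v : ℝ) : ℂ)) := by
    intro h
    refine rp_ex3 (f := fun v : ℤ × ℤ =>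
      cexp (2 * Real.pi * I * ((v.1 * h.2 - v.2 * h.1 : ℤ) : ℂ) / M)) (K := 1) Q2 ?_ (lf_bdd q1 q2)
    intro v
    have e : (2 * Real.pi * Complex.I * ((v.1 * h.2 - v.2 * h.1 : ℤ) : ℂ) / M : ℂ) =
        ((2 * Real.pi * (v.1 * h.2 - v.2 * h.1 : ℤ) / M : ℝ) : ℂ) * I := by
      push_cast
      ring
    rw [e, Complex.norm_exp_ofReal_mul_I]
  simp only [← ke_eq] at R1 R2 R3
  obtain ⟨K0, hK0⟩ : ∃ K0 : ℂ, K0 = 1 / (2 * (M : ℂ) ^ 2 * ‖τ‖ * |p1 * q2 - p2 * q1|) := ⟨_, rfl⟩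
  obtain ⟨μ, hμ⟩ : ∃ μ : ℂ, μ = -1 / (2 * M * τ * (p1 * q2 - p2 * q1)) := ⟨_, rfl⟩
  have main : ∀ u : ℂ, ∑' v, f v * ke p1 p2 q1 q2 τ v * cexp (u * ((lf p1 p2 v : ℝ) : ℂ)) =
      K0 * cexp (I / (8 * Real.pi * τ) * u ^ 2) * ∑' v,
      hatF M f v * ke q1 q2 p1 p2 τ' v * cexp (μ * u * ((lf q1 q2 v : ℝ) : ℂ)) := by
    intro u
    rw [decomp M _ (rp_summable R1 u)]
    have e1 : ∀ h : Fin M × Fin M, ∑' x : ℤ × ℤ, f (x.1 * M + (h.1.1 : ℤ), x.2 * M + (h.2.1 : ℤ)) *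
        ke p1 p2 q1 q2 τ (x.1 * M + (h.1.1 : ℤ), x.2 * M + (h.2.1 : ℤ)) *
        cexp (u * ((lf p1 p2 (x.1 * M + (h.1.1 : ℤ), x.2 * M + (h.2.1 : ℤ)) : ℝ) : ℂ)) =
        K0 * cexp (I / (8 * Real.pi * τ) * u ^ 2) * ∑' v : ℤ × ℤ, f ((h.1.1 : ℤ), (h.2.1 : ℤ)) *
          (cexp (2 * Real.pi * I * ((v.1 * (h.2.1 : ℤ) - v.2 * (h.1.1 : ℤ) : ℤ) : ℂ) / M) *
          ke q1 q2 p1 p2 τ' v * cexp (μ * u * ((lf q1 q2 v : ℝ) : ℂ))) := by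
      intro h
      have p1' : ∀ x : ℤ × ℤ, f (x.1 * M + (h.1.1 : ℤ), x.2 * M + (h.2.1 : ℤ)) =
          f ((h.1.1 : ℤ), (h.2.1 : ℤ)) := by
        intro x
        rw [← hf ((h.1.1 : ℤ), (h.2.1 : ℤ)) x]
        congr 1
        refine Prod.ext ?_ ?_
        · simp only [Prod.fst_add, Prod.smul_fst, smul_eq_mul]
          ring
        · simp only [Prod.snd_add, Prod.smul_snd, smul_eq_mul]
          ring
      have p2' := cls3 hd hM hτ u ((h.1.1 : ℤ), (h.2.1 : ℤ))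
      rw [← hK0, ← hτ', ← hμ] at p2'
      simp only [p1', mul_assoc (f _)]
      rw [tsum_mul_left, tsum_mul_left, mul_left_comm, p2']
    simp only [e1]
    rw [← Finset.mul_sum]
    congr 1
    rw [← Summable.tsum_finsetSum]
    · refine tsum_congr fun v => ?_
      unfold hatF
      rw [Fintype.sum_prod_type, Finset.sum_mul, Finset.sum_mul]
      refine Finset.sum_congr rfl fun i _ => ?_
      rw [Finset.sum_mul, Finset.sum_mul]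
      refine Finset.sum_congr rfl fun j _ => ?_
      push_cast
      ring
    · intro h _
      exact (rp_summable (R3 ((h.1.1 : ℤ), (h.2.1 : ℤ))) (μ * u)).mul_left _
  have a1 := rp_deriv R1 0
  have a2 := rp_deriv R2 (μ * 0)
  have a3 : HasDerivAt (fun u : ℂ => μ * u) μ 0 := by
    simpa using (hasDerivAt_id (0 : ℂ)).const_mul μ
  have a4 := a2.comp 0 a3
  have a5 : HasDerivAt (fun u : ℂ => K0 * cexp (I / (8 * Real.pi * τ) * u ^ 2)) 0 0 := by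
    have b1 : HasDerivAt (fun u : ℂ => I / (8 * Real.pi * τ) * u ^ 2) 0 0 := by
      simpa using ((hasDerivAt_id (0 : ℂ)).pow 2).const_mul (I / (8 * Real.pi * τ))
    simpa using b1.cexp.const_mul K0
  have a6 := a5.mul a4
  have a7 : (fun u => ∑' v, f v * ke p1 p2 q1 q2 τ v * cexp (u * ((lf p1 p2 v : ℝ) : ℂ))) =
      fun u => (K0 * cexp (I / (8 * Real.pi * τ) * u ^ 2)) * ((fun w => ∑' v,
      hatF M f v * ke q1 q2 p1 p2 τ' v * cexp (w * ((lf q1 q2 v : ℝ) : ℂ))) ∘ fun u => μ * u) u := by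
    funext u
    exact main u
  rw [a7] at a1
  have a8 := a1.unique a6
  have c1 : ∑' v, f v * (((lf p1 p2 v : ℝ) : ℂ) * ke p1 p2 q1 q2 τ v) =
      ∑' n, f n * ke p1 p2 q1 q2 τ n * ((lf p1 p2 n : ℝ) : ℂ) * cexp (0 * ((lf p1 p2 n : ℝ) : ℂ)) := by
    refine tsum_congr fun v => ?_
    rw [zero_mul, Complex.exp_zero]
    ring
  have c2 : ∑' v, hatF M f v * (((lf q1 q2 v : ℝ) : ℂ) * ke q1 q2 p1 p2 τ' v) =
      ∑' n, hatF M f n * ke q1 q2 p1 p2 τ' n * ((lf q1 q2 n : ℝ) : ℂ) *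
        cexp (μ * 0 * ((lf q1 q2 n : ℝ) : ℂ)) := by
    refine tsum_congr fun v => ?_
    rw [mul_zero, zero_mul, Complex.exp_zero]
    ring
  rw [c1, ← hτ', c2, a8]
  have hτn : (‖τ‖ : ℂ) ≠ 0 := by exact_mod_cast (norm_pos_iff.2 hτ0).ne'
  have hab : ((|p1 * q2 - p2 * q1| : ℝ) : ℂ) ≠ 0 := by exact_mod_cast (abs_pos.2 hd).ne'
  simp only [zero_mul, zero_add, ne_eq, OfNat.ofNat_ne_zero, not_false_eq_true, zero_pow, mul_zero,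
    Complex.exp_zero, mul_one]
  rw [hK0, hμ]
  field_simp
  ring

end kern

/-! ### the literal -/

lemma wp_eq (a b : ℤ) (D : ℕ) (t : ℝ) (v : ℤ × ℤ) : H352.Wp a b D t v =
    lf ((t * a + t⁻¹ * a) / (2 * √a)) ((t * ((b + √D) / 2) + t⁻¹ * ((b - √D) / 2)) / (2 * √a)) v := by
  unfold H352.Wp H352.e1 H352.e2 lf
  ring

lemma wm_eq (a b : ℤ) (D : ℕ) (t : ℝ) (v : ℤ × ℤ) : H352.Wm a b D t v =
    lf ((t * a - t⁻¹ * a) / (2 * √a)) ((t * ((b + √D) / 2) - t⁻¹ * ((b - √D) / 2)) / (2 * √a)) v := by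
  unfold H352.Wm H352.e1 H352.e2 lf
  ring

lemma det_eq {a b : ℤ} {D : ℕ} (ha : 0 < a) {t : ℝ} (ht : 0 < t) :
    (t * a + t⁻¹ * a) / (2 * √a) * ((t * ((b + √D) / 2) - t⁻¹ * ((b - √D) / 2)) / (2 * √a)) -
    (t * ((b + √D) / 2) + t⁻¹ * ((b - √D) / 2)) / (2 * √a) * ((t * a - t⁻¹ * a) / (2 * √a)) =
    √D / 2 := by
  have ha' : (0 : ℝ) < a := by exact_mod_cast ha
  have hs : √(a : ℝ) ^ 2 = a := Real.sq_sqrt ha'.le
  have hs0 : √(a : ℝ) ≠ 0 := (Real.sqrt_pos.2 ha').ne'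
  have ht0 : t ≠ 0 := ht.ne'
  have e : (t * a + t⁻¹ * a) / (2 * √a) * ((t * ((b + √D) / 2) - t⁻¹ * ((b - √D) / 2)) / (2 * √a)) -
    (t * ((b + √D) / 2) + t⁻¹ * ((b - √D) / 2)) / (2 * √a) * ((t * a - t⁻¹ * a) / (2 * √a)) =
    a * √D / (2 * √(a : ℝ) ^ 2) := by
    field_simp
    ring
  rw [e, hs]
  field_simp

/-- **[RPO]** -/
theorem RPO : H352.RPOStmt := by
  intro a b c D ha hD hb M hM f hf t ht w hw
  have hD0 : (0 : ℝ) < D := by exact_mod_cast hD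
  have hs : 0 < √(D : ℝ) := Real.sqrt_pos.2 hD0
  have hs2 : √(D : ℝ) * √(D : ℝ) = D := Real.mul_self_sqrt hD0.le
  have hs2' : (√(D : ℝ) : ℂ) * (√(D : ℝ) : ℂ) = (D : ℂ) := by exact_mod_cast hs2
  have hd := det_eq (b := b) (D := D) ha ht
  have hd1 : (t * a + t⁻¹ * a) / (2 * √a) * ((t * ((b + √D) / 2) - t⁻¹ * ((b - √D) / 2)) / (2 * √a)) -
    (t * ((b + √D) / 2) + t⁻¹ * ((b - √D) / 2)) / (2 * √a) * ((t * a - t⁻¹ * a) / (2 * √a)) ≠ 0 := by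
    rw [hd]
    positivity
  have hd2 : (t * a - t⁻¹ * a) / (2 * √a) * ((t * ((b + √D) / 2) + t⁻¹ * ((b - √D) / 2)) / (2 * √a)) -
    (t * ((b + √D) / 2) - t⁻¹ * ((b - √D) / 2)) / (2 * √a) * ((t * a + t⁻¹ * a) / (2 * √a)) =
    -(√D / 2) := by
    rw [← hd]
    ring
  have hd3 : (t * a - t⁻¹ * a) / (2 * √a) * ((t * ((b + √D) / 2) + t⁻¹ * ((b - √D) / 2)) / (2 * √a)) -
    (t * ((b + √D) / 2) - t⁻¹ * ((b - √D) / 2)) / (2 * √a) * ((t * a + t⁻¹ * a) / (2 * √a)) ≠ 0 := by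
    rw [hd2]
    have : 0 < √(D : ℝ) / 2 := by positivity
    linarith
  have K1 := kern hd1 hM hf hw
  have K2 := kern hd3 hM hf hw
  have c1 : ∀ (A1 A2 B1 B2 : ℝ), (((A1 * B2 - A2 * B1 : ℝ)) : ℂ) = (A1 : ℂ) * B2 - A2 * B1 := by
    intro A1 A2 B1 B2
    push_cast
    ring
  rw [← c1, hd] at K1
  rw [← c1, hd2] at K2
  have ab1 : |√(D : ℝ) / 2| = √(D : ℝ) / 2 := abs_of_pos (by positivity)
  have ab2 : |-(√(D : ℝ) / 2)| = √(D : ℝ) / 2 := by rw [abs_neg, ab1]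
  rw [ab1] at K1
  rw [ab2] at K2
  have t1 : (-1 / (4 * ((√(D : ℝ) / 2 : ℝ) : ℂ) ^ 2 * M ^ 2 * w) : ℂ) = -1 / (D * M ^ 2 * w) := by
    congr 1
    rw [← hs2']
    push_cast
    ring
  have t2 : (-1 / (4 * ((-(√(D : ℝ) / 2) : ℝ) : ℂ) ^ 2 * M ^ 2 * w) : ℂ) = -1 / (D * M ^ 2 * w) := by
    congr 1
    rw [← hs2']
    push_cast
    ring
  rw [t1] at K1
  rw [t2] at K2
  have s1 : (1 / (4 * (M : ℂ) ^ 3 * ((√(D : ℝ) / 2 : ℝ) : ℂ) * ((√(D : ℝ) / 2 : ℝ) : ℂ) * w * ‖w‖)) =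
      1 / (D * M ^ 3 * w * ‖w‖) := by
    congr 1
    rw [← hs2']
    push_cast
    ring
  have s2 : (1 / (4 * (M : ℂ) ^ 3 * ((-(√(D : ℝ) / 2) : ℝ) : ℂ) * ((√(D : ℝ) / 2 : ℝ) : ℂ) * w * ‖w‖)) =
      -(1 / (D * M ^ 3 * w * ‖w‖)) := by
    rw [← s1, Complex.ofReal_neg, show (4 * (M : ℂ) ^ 3 * -((√(D : ℝ) / 2 : ℝ) : ℂ) *
      ((√(D : ℝ) / 2 : ℝ) : ℂ) * w * ‖w‖) = -(4 * (M : ℂ) ^ 3 * ((√(D : ℝ) / 2 : ℝ) : ℂ) *
      ((√(D : ℝ) / 2 : ℝ) : ℂ) * w * ‖w‖) by ring, div_neg]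
  rw [s1] at K1
  rw [s2] at K2
  refine ⟨?_, ?_⟩
  · unfold H352.Tp H352.Tm H352.kp H352.km
    simp only [wp_eq, wm_eq]
    exact K1
  · unfold H352.Tp H352.Tm H352.kp H352.km
    simp only [wp_eq, wm_eq]
    rw [neg_neg] at K2
    exact K2

end Vale.Agent.P022.H118
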